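import Vale.Agent.P130.Flat.Prop.Basic

/-!
P130, flatness proposition: the main term of the atoms is bounded and close to the polynomial of the waveform.
-/

namespace Vale.Agent.P130.Flat.Prop

open MeasureTheory Finset
open Vale.Agent.P110.Ultra (Vec dotZ dotR qOf)
open scoped ComplexConjugate

noncomputable section

theorem norm_sum_le_of_unique {κ : Type} (s : Finset κ) (f : κ → ℂ) {B : ℝ} (hB : 0 ≤ B)
    (h : ∀ x ∈ s, ∀ y ∈ s, f x ≠ 0 → f y ≠ 0 → x = y) (hf : ∀ x ∈ s, ‖f x‖ ≤ B) : ‖∑ x ∈ s, f x‖ ≤ B := by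
  by_cases h0 : ∀ x ∈ s, f x = 0
  · rwa [Finset.sum_eq_zero h0, norm_zero]
  · push Not at h0
    obtain ⟨x, hx, hx0⟩ := h0
    rw [Finset.sum_eq_single x (fun y hy hne => not_not.1 fun h1 => hne (h y hy x hx h1 hx0))
      fun h1 => absurd hx h1]
    exact hf x hx

theorem norm_sum_sq_le {κ : Type} (s : Finset κ) (f : κ → ℂ) :
    ‖∑ x ∈ s, f x‖ ^ 2 ≤ s.card * ∑ x ∈ s, ‖f x‖ ^ 2 :=
  (pow_le_pow_left₀ (norm_nonneg _) (norm_sum_le _ _) 2).trans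
    (sq_sum_le_card_mul_sum_sq (f := fun x => ‖f x‖))

theorem sum_range_blocks {β : Type} [AddCommMonoid β] (R l : ℕ) (h : ℕ → β) :
    ∑ j ∈ range (R * l), h j = ∑ r ∈ range R, ∑ i ∈ range l, h (r * l + i) := by
  induction R with
  | zero => simp
  | succ R ih => rw [Nat.succ_mul, Finset.sum_range_add, ih, Finset.sum_range_succ]

/-- Periodic functions have the same integral after a translation or a reflection. -/
theorem integral_periodic_affine (f : ℝ → ℝ) (hf : Function.Periodic f 1) (c : ℝ) (β : Bool) :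
    ∫ τ, f ((if β then τ else -τ) - c) ∂leb = ∫ τ, f τ ∂leb := by
  simp only [leb, ← intervalIntegral.integral_of_le zero_le_one]
  cases β
  · simp only [Bool.false_eq_true, if_false]
    rw [intervalIntegral.integral_comp_neg (fun y => f (y - c)), intervalIntegral.integral_comp_sub_right]
    have h := hf.intervalIntegral_add_eq (-1 - c) 0
    simpa [show -1 - c + 1 = -c by ring, show -c + 1 = 1 - c by ring, show (-(0 : ℝ)) - c = -c by ring] using h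
  · simp only [if_true]
    rw [intervalIntegral.integral_comp_sub_right]
    have h := hf.intervalIntegral_add_eq (0 - c) 0
    rw [show 0 - c + 1 = 1 - c by ring] at h
    simpa using h

/-- The data of the atoms. -/
structure Data (d : ℕ) where
  /-- arcs -/
  W : Arcs d
  /-- coefficient of a frequency -/
  a : Vec d → ℝ → ℂ
  /-- coefficient of the opposite frequency -/
  b : Vec d → ℝ → ℂ
  /-- moduli -/
  n : Vec d → ℕ
  /-- the quadratic direction -/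
  bv : Vec d
  /-- the colour modulus -/
  Q : ℕ
  /-- number of epochs -/
  R : ℕ
  /-- epochs -/
  g : ℕ → Vec d
  /-- Gauss coefficients -/
  γ : Vec d → ℕ → ℂ
  /-- length of an epoch -/
  l : ℕ
  /-- number of terms -/
  N : ℕ
  /-- flat chirps -/
  Φ : Vec d → ℝ → ℂ

variable {d : ℕ}

namespace Data

variable (D : Data d)

/-- The product of the moduli. -/
def q : ℕ := qOf D.W.S D.n

/-- The number of cells. -/
def p : ℕ := D.Q * D.q

/-- The number of translates of a cell. -/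
def K (m : Vec d) : ℕ := D.q / D.n m

/-- The relative width of a cell. -/
def w (m : Vec d) : ℝ := (m 0 : ℝ) / D.p

/-- The left end of a cell. -/
def cen (m : Vec d) (r i : ℕ) : ℝ := (i : ℝ) / D.K m + (dotZ m (D.g r) : ℝ) / D.p

/-- The shifts of the base point. -/
def psi (j : ℕ) : Fin (d + 1) → ℝ := fun c =>
  -((D.bv c : ℝ) * ((j : ℝ) ^ 2 / D.q) + (D.g (j / D.l) c : ℝ) * ((j : ℝ) / D.p) +
    if c = 0 then ((j % D.l : ℕ) : ℝ) ^ 2 / (2 * D.l * D.p) else 0)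

/-- The waveform's trigonometric polynomial. -/
def T (θ : ℝ) (x : Fin (d + 1) → ℝ) : ℂ :=
  ∑ m ∈ D.W.S, (D.a m θ * ex (dotR m x) + D.b m θ * ex (-dotR m x))

/-- The indices of the atoms. -/
def idx : Finset (Σ _ : Vec d, (ℕ × ℕ) × Bool) :=
  D.W.S.sigma fun m => (range D.R ×ˢ range (D.K m)) ×ˢ (Finset.univ : Finset Bool)

/-- An atom built on the given profiles. -/
def atom (Ψ : Vec d → ℝ → ℂ) (τ θ : ℝ) (x0 : Fin (d + 1) → ℝ) (z : Σ _ : Vec d, (ℕ × ℕ) × Bool) : ℂ :=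
  if z.2.2 then
    D.a z.1 θ * ex (dotR z.1 x0) *
      (D.γ z.1 z.2.1.2 * ex (((z.2.1.1 * D.l : ℕ) : ℝ) * (τ - D.cen z.1 z.2.1.1 z.2.1.2)) *
        Ψ z.1 (τ - D.cen z.1 z.2.1.1 z.2.1.2))
  else
    D.b z.1 θ * ex (-dotR z.1 x0) *
      conj (D.γ z.1 z.2.1.2 * ex (((z.2.1.1 * D.l : ℕ) : ℝ) * (-τ - D.cen z.1 z.2.1.1 z.2.1.2)) *
        Ψ z.1 (-τ - D.cen z.1 z.2.1.1 z.2.1.2))

/-- The main term. -/
def main (τ θ : ℝ) (x0 : Fin (d + 1) → ℝ) : ℂ :=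
  if Int.fract ((D.p : ℝ) * τ) = 0 then 0
  else ((Real.sqrt D.N)⁻¹ : ℝ) * ∑ z ∈ D.idx, D.atom D.Φ τ θ x0 z

/-- The polynomial of the waveform. -/
def approx (τ θ : ℝ) (x0 : Fin (d + 1) → ℝ) : ℂ :=
  ((Real.sqrt D.N)⁻¹ : ℝ) * ∑ j ∈ range (D.R * D.l), D.T θ (x0 + D.psi j) * ex ((j : ℝ) * τ)

/-- The chirp sums. -/
def chirp (m : Vec d) (u : ℝ) : ℂ := ∑ j ∈ range D.l, ex ((j : ℝ) * u - D.w m * (j : ℝ) ^ 2 / (2 * D.l))

/-- The hypotheses on the data. -/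
structure Ok : Prop where
  valid : ∃ a : ℝ, D.W.Valid a
  hQ : 0 < D.Q
  hn : ∀ m ∈ D.W.S, 0 < D.n m
  hl : 0 < D.l
  hab : ∀ m ∈ D.W.S, ∀ θ : ℝ,
    ‖D.a m θ‖ ^ 2 = D.W.f m * (Set.Icc (D.W.lo m) (D.W.hi m)).indicator 1 θ ∧
    ‖D.b m θ‖ ^ 2 = D.W.f m * (Set.Icc (D.W.lo m) (D.W.hi m)).indicator 1 (1 - θ)
  hγ : ∀ m ∈ D.W.S, ∀ i < D.K m, ‖D.γ m i‖ ^ 2 = ((D.K m : ℕ) : ℝ)⁻¹
  hexp : ∀ m ∈ D.W.S, ∀ k : ℕ, ex (-((dotZ m D.bv : ℝ) * (k : ℝ) ^ 2 / (D.q : ℝ))) =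
    ∑ i ∈ range (D.K m), D.γ m i * ex (-((i : ℝ) * k / ((D.K m : ℕ) : ℝ)))
  hΦ : ∀ m ∈ D.W.S, ∀ u, ‖D.Φ m u‖ = if Int.fract u < D.w m then Real.sqrt (D.l / D.w m) else 0
  hΦp : ∀ m ∈ D.W.S, Function.Periodic (D.Φ m) 1

variable {D}

theorem q_pos (h : D.Ok) : 0 < D.q := Finset.prod_pos h.hn

theorem p_pos (h : D.Ok) : 0 < D.p := Nat.mul_pos h.hQ (q_pos h)

theorem K_pos (h : D.Ok) {m : Vec d} (hm : m ∈ D.W.S) : 0 < D.K m :=
  Nat.div_pos (Nat.le_of_dvd (q_pos h) (Finset.dvd_prod_of_mem _ hm)) (h.hn m hm)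

theorem q_eq (h : D.Ok) {m : Vec d} (hm : m ∈ D.W.S) : (D.q : ℝ) = (D.n m : ℝ) * D.K m := by
  exact_mod_cast (Nat.mul_div_cancel' (Finset.dvd_prod_of_mem D.n hm)).symm

/-- Inside its cell the position is a cell index. -/
theorem exists_cell (h : D.Ok) {m : Vec d} (hm : m ∈ D.W.S) (r i : ℕ) {u : ℝ}
    (hu : Int.fract (u - D.cen m r i) < D.w m) :
    ∃ s < (m 0).toNat, ⌊(D.p : ℝ) * u⌋ ≡ (i : ℤ) * D.n m * D.Q + dotZ m (D.g r) + s [ZMOD (D.p : ℤ)] := by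
  have hp : (0 : ℝ) < D.p := Nat.cast_pos.2 (p_pos h)
  have hK : (D.K m : ℝ) ≠ 0 := Nat.cast_ne_zero.2 (K_pos h hm).ne'
  set z : ℤ := (i : ℤ) * D.n m * D.Q + dotZ m (D.g r) with hz
  set k : ℤ := ⌊u - D.cen m r i⌋ with hk
  have hcen : (D.p : ℝ) * D.cen m r i = (z : ℝ) := by
    rw [cen, mul_add, mul_div_cancel₀ _ hp.ne', hz, Data.p, Nat.cast_mul, q_eq h hm]
    push_cast
    field_simp
  have hr : (D.p : ℝ) * Int.fract (u - D.cen m r i) = (D.p : ℝ) * u - z - (k * D.p : ℤ) := by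
    rw [Int.fract, ← hk, mul_sub, mul_sub, hcen]
    push_cast
    ring
  have h0 : 0 ≤ (D.p : ℝ) * Int.fract (u - D.cen m r i) := mul_nonneg hp.le (Int.fract_nonneg _)
  have h1 : (D.p : ℝ) * Int.fract (u - D.cen m r i) < (m 0 : ℝ) := by
    rw [Data.w, lt_div_iff₀ hp] at hu
    linarith
  have hfl : ⌊(D.p : ℝ) * Int.fract (u - D.cen m r i)⌋ = ⌊(D.p : ℝ) * u⌋ - z - k * D.p := by
    rw [hr, Int.floor_sub_intCast, Int.floor_sub_intCast]
  have h2 : 0 ≤ ⌊(D.p : ℝ) * Int.fract (u - D.cen m r i)⌋ := Int.floor_nonneg.2 h0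
  have h3 : ⌊(D.p : ℝ) * Int.fract (u - D.cen m r i)⌋ < m 0 := Int.floor_lt.2 h1
  refine ⟨(⌊(D.p : ℝ) * Int.fract (u - D.cen m r i)⌋).toNat, by omega, ?_⟩
  rw [Int.toNat_of_nonneg h2, hfl]
  refine (Int.modEq_iff_dvd.2 ⟨-k, ?_⟩)
  ring

theorem indicator_ne {m : Vec d} {x : ℝ} {c : ℂ} (hc : ‖c‖ ^ 2 = D.W.f m *
    (Set.Icc (D.W.lo m) (D.W.hi m)).indicator 1 x) (h : c ≠ 0) :
    x ∈ Set.Icc (D.W.lo m) (D.W.hi m) := by
  by_contra hn
  rw [Set.indicator_of_notMem hn, mul_zero] at hc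
  exact h (norm_eq_zero.1 (pow_eq_zero_iff two_ne_zero |>.1 hc))

/-- At most one atom is alive at a point off the grid. -/
theorem atom_unique (h : D.Ok) {M : ℕ} {flip : Equiv.Perm (Fin M)} {lab : Vec d → Finset (Fin M)}
    (hmeet : ∀ m ∈ D.W.S, ∀ m' ∈ D.W.S, m ≠ m' → D.W.Meet m m' → Disjoint (lab m) (lab m'))
    (hmir : ∀ m ∈ D.W.S, ∀ m' ∈ D.W.S, D.W.MeetMirror m m' → Disjoint (lab m) ((lab m').map flip.toEmbedding))
    (hcells : CellsLab D.W.S flip lab D.n D.Q D.R D.g) {τ θ : ℝ} {x0 : Fin (d + 1) → ℝ}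
    (hτ : Int.fract ((D.p : ℝ) * τ) ≠ 0) :
    ∀ x ∈ D.idx, ∀ y ∈ D.idx, D.atom D.Φ τ θ x0 x ≠ 0 → D.atom D.Φ τ θ x0 y ≠ 0 → x = y := by
  have key : ∀ z ∈ D.idx, D.atom D.Φ τ θ x0 z ≠ 0 →
      (z.1 ∈ D.W.S ∧ z.2.1.1 < D.R ∧ z.2.1.2 < D.K z.1) ∧
      (if z.2.2 then θ else 1 - θ) ∈ Set.Icc (D.W.lo z.1) (D.W.hi z.1) ∧
      ∃ s < (z.1 0).toNat, ⌊(D.p : ℝ) * (if z.2.2 then τ else -τ)⌋ ≡
        (z.2.1.2 : ℤ) * D.n z.1 * D.Q + dotZ z.1 (D.g z.2.1.1) + s [ZMOD (D.p : ℤ)] := by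
    rintro ⟨m, ⟨r, i⟩, β⟩ hz hne
    simp only [Data.idx, Finset.mem_sigma, Finset.mem_product, Finset.mem_range, Finset.mem_univ,
      and_true] at hz
    have hz' := hz
    obtain ⟨hm, hr, hi⟩ := hz'
    have hΦ : ∀ u, D.Φ m u ≠ 0 → Int.fract u < D.w m := fun u hu => by
      by_contra hn
      exact hu (norm_eq_zero.1 (by rw [h.hΦ m hm u, if_neg hn]))
    cases β <;> simp only [Data.atom, Bool.false_eq_true, if_false, if_true, ne_eq, mul_eq_zero,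
      map_eq_zero, not_or] at hne ⊢
    · exact ⟨⟨hm, hr, hi⟩, indicator_ne (h.hab m hm θ).2 hne.1.1,
        exists_cell h hm r i (hΦ _ hne.2.2)⟩
    · exact ⟨⟨hm, hr, hi⟩, indicator_ne (h.hab m hm θ).1 hne.1.1,
        exists_cell h hm r i (hΦ _ hne.2.2)⟩
  have hfl : ⌊(D.p : ℝ) * (-τ)⌋ = -1 - ⌊(D.p : ℝ) * τ⌋ := by
    have hpos : 0 < Int.fract ((D.p : ℝ) * τ) := lt_of_le_of_ne (Int.fract_nonneg _) (Ne.symm hτ)
    have hceil : ⌈(D.p : ℝ) * τ⌉ = ⌊(D.p : ℝ) * τ⌋ + 1 := by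
      rw [Int.ceil_eq_iff]
      have := Int.floor_add_fract ((D.p : ℝ) * τ)
      have := Int.fract_lt_one ((D.p : ℝ) * τ)
      push_cast
      constructor <;> linarith
    rw [mul_neg, Int.floor_neg, hceil]
    ring
  rintro ⟨m, ⟨r, i⟩, β⟩ hx ⟨m', ⟨r', i'⟩, β'⟩ hy hx0 hy0
  obtain ⟨⟨hm, hr, hi⟩, hθ, s, hs, hc⟩ := key _ hx hx0
  obtain ⟨⟨hm', hr', hi'⟩, hθ', s', hs', hc'⟩ := key _ hy hy0
  dsimp only at hm hr hi hθ hs hc hm' hr' hi' hθ' hs' hc'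
  have hp : D.p = D.Q * qOf D.W.S D.n := rfl
  have hcl := hcells r hr r' hr' m hm m' hm' i hi i' hi' s hs s' hs'
  have hcl' := hcells r' hr' r hr m' hm' m hm i' hi' i hi s' hs' s hs
  simp only [← hp] at hcl hcl'
  rw [Set.mem_Icc] at hθ hθ'
  cases β <;> cases β' <;> simp only [Bool.false_eq_true, if_false, if_true] at hθ hθ' hc hc'
  · obtain ⟨rfl, rfl, rfl, -⟩ := hcl.1
      (or_iff_not_imp_left.2 fun hne => hmeet m hm m' hm' hne ⟨by linarith, by linarith⟩) (hc.symm.trans hc')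
    rfl
  · exfalso
    rw [hfl] at hc
    refine hcl'.2 (hmir m' hm' m hm ⟨by linarith, by linarith⟩) (hc'.symm.trans ?_)
    have := (Int.ModEq.refl (-1 : ℤ)).sub hc
    simpa using this
  · exfalso
    rw [hfl] at hc'
    refine hcl.2 (hmir m hm m' hm' ⟨by linarith, by linarith⟩) (hc.symm.trans ?_)
    have := (Int.ModEq.refl (-1 : ℤ)).sub hc'
    simpa using this
  · obtain ⟨rfl, rfl, rfl, -⟩ := hcl.1
      (or_iff_not_imp_left.2 fun hne => hmeet m hm m' hm' hne ⟨by linarith, by linarith⟩) (hc.symm.trans hc')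
    rfl

/-- The main term is bounded. -/
theorem norm_main_le (h : D.Ok) {M : ℕ} {flip : Equiv.Perm (Fin M)} {lab : Vec d → Finset (Fin M)}
    (hmeet : ∀ m ∈ D.W.S, ∀ m' ∈ D.W.S, m ≠ m' → D.W.Meet m m' → Disjoint (lab m) (lab m'))
    (hmir : ∀ m ∈ D.W.S, ∀ m' ∈ D.W.S, D.W.MeetMirror m m' → Disjoint (lab m) ((lab m').map flip.toEmbedding))
    (hcells : CellsLab D.W.S flip lab D.n D.Q D.R D.g) {B : ℝ} (hB : 0 ≤ B) (hN : 0 < D.N)
    (hlN : D.R * D.l ≤ D.N)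
    (hbound : ∀ m ∈ D.W.S, D.W.f m * D.n m * D.Q ≤ B ^ 2 * ((m 0 : ℝ) * D.R)) (τ θ : ℝ)
    (x0 : Fin (d + 1) → ℝ) : ‖D.main τ θ x0‖ ≤ B := by
  by_cases hτ : Int.fract ((D.p : ℝ) * τ) = 0
  · rw [Data.main, if_pos hτ, norm_zero]
    exact hB
  have hN' : (0 : ℝ) < D.N := Nat.cast_pos.2 hN
  rw [Data.main, if_neg hτ, Finset.mul_sum]
  refine norm_sum_le_of_unique _ _ hB (fun x hx y hy hx0 hy0 =>
    atom_unique h hmeet hmir hcells hτ x hx y hy (right_ne_zero_of_mul hx0) (right_ne_zero_of_mul hy0)) ?_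
  rintro ⟨m, ⟨r, i⟩, β⟩ hz
  simp only [Data.idx, Finset.mem_sigma, Finset.mem_product, Finset.mem_range, Finset.mem_univ,
    and_true] at hz
  obtain ⟨hm, -, hi⟩ := hz
  obtain ⟨a, hv⟩ := h.valid
  have hm0 : (0 : ℝ) < (m 0 : ℝ) := Int.cast_pos.2 (hv.prim m hm).1
  have hf0 : 0 ≤ D.W.f m := (hv.pos m hm).le
  have hp : (0 : ℝ) < D.p := Nat.cast_pos.2 (p_pos h)
  have hK : (0 : ℝ) < D.K m := Nat.cast_pos.2 (K_pos h hm)
  have hwpos : 0 < D.w m := div_pos hm0 hp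
  have hΦ : ∀ u, ‖D.Φ m u‖ ^ 2 ≤ D.l / D.w m := fun u => by
    rw [h.hΦ m hm u]
    split_ifs
    · rw [Real.sq_sqrt (by positivity)]
    · simp; positivity
  have hco : ∀ (c : ℂ) (x : ℝ), ‖c‖ ^ 2 = D.W.f m * (Set.Icc (D.W.lo m) (D.W.hi m)).indicator 1 x →
      ‖c‖ ^ 2 ≤ D.W.f m := fun c x hc => by
    rw [hc]
    exact mul_le_of_le_one_right hf0 (Set.indicator_le_self' (fun _ _ => zero_le_one) _)
  have hlR : (D.R : ℝ) * D.l ≤ D.N := by exact_mod_cast hlN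
  have hfin : (Real.sqrt D.N)⁻¹ ^ 2 * (D.W.f m * ((D.K m : ℝ)⁻¹ * (D.l / D.w m))) ≤ B ^ 2 := by
    have hb := hbound m hm
    have e : (Real.sqrt D.N)⁻¹ ^ 2 * (D.W.f m * ((D.K m : ℝ)⁻¹ * (D.l / D.w m))) =
        D.W.f m * D.n m * D.Q * D.l / ((m 0 : ℝ) * D.N) := by
      rw [inv_pow, Real.sq_sqrt hN'.le, Data.w, Data.p, Nat.cast_mul, q_eq h hm]
      field_simp
    rw [e, div_le_iff₀ (by positivity)]
    calc D.W.f m * D.n m * D.Q * D.l ≤ B ^ 2 * ((m 0 : ℝ) * D.R) * D.l :=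
          mul_le_mul_of_nonneg_right hb (Nat.cast_nonneg _)
      _ ≤ B ^ 2 * ((m 0 : ℝ) * D.N) := by
          rw [mul_assoc, mul_assoc]
          exact mul_le_mul_of_nonneg_left (mul_le_mul_of_nonneg_left hlR hm0.le) (sq_nonneg _)
  refine (pow_le_pow_iff_left₀ (norm_nonneg _) hB two_ne_zero).1 (le_trans ?_ hfin)
  simp only [norm_mul, mul_pow, Complex.norm_real, Real.norm_eq_abs, sq_abs]
  refine mul_le_mul_of_nonneg_left ?_ (by positivity)
  cases β <;> simp only [Data.atom, Bool.false_eq_true, if_false, if_true, norm_mul, mul_pow, Complex.norm_conj,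
    norm_ex, mul_one, h.hγ m hm i hi]
  · exact mul_le_mul (hco _ _ (h.hab m hm θ).2) (mul_le_mul_of_nonneg_left (hΦ _) (by positivity))
      (by positivity) hf0
  · exact mul_le_mul (hco _ _ (h.hab m hm θ).1) (mul_le_mul_of_nonneg_left (hΦ _) (by positivity))
      (by positivity) hf0

/-- The polynomial of the waveform is a sum of chirp atoms. -/
theorem approx_eq (h : D.Ok) (τ θ : ℝ) (x0 : Fin (d + 1) → ℝ) :
    D.approx τ θ x0 = ((Real.sqrt D.N)⁻¹ : ℝ) * ∑ z ∈ D.idx, D.atom D.chirp τ θ x0 z := by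
  have hl : (D.l : ℝ) ≠ 0 := Nat.cast_ne_zero.2 h.hl.ne'
  have hp : (D.p : ℝ) ≠ 0 := Nat.cast_ne_zero.2 (p_pos h).ne'
  have hstep : ∀ m ∈ D.W.S, ∀ r, ∀ jl < D.l, ∀ u : ℝ,
      ex (dotR m (D.psi (r * D.l + jl))) * ex (((r * D.l + jl : ℕ) : ℝ) * u) =
        ∑ i ∈ range (D.K m), D.γ m i * ex (((r * D.l : ℕ) : ℝ) * (u - D.cen m r i)) *
          ex ((jl : ℝ) * (u - D.cen m r i) - D.w m * (jl : ℝ) ^ 2 / (2 * D.l)) := by
    intro m hm r jl hjl u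
    set j := r * D.l + jl with hj
    have hdiv : j / D.l = r := by rw [hj, mul_comm, Nat.mul_add_div h.hl, Nat.div_eq_of_lt hjl, add_zero]
    have hmod : j % D.l = jl := by rw [hj, mul_comm, Nat.mul_add_mod, Nat.mod_eq_of_lt hjl]
    have hdot : dotR m (D.psi j) = -((dotZ m D.bv : ℝ) * (j : ℝ) ^ 2 / (D.q : ℝ)) +
        (-((dotZ m (D.g r) : ℝ) * j / D.p) - D.w m * (jl : ℝ) ^ 2 / (2 * D.l)) := by
      simp only [dotR, dotZ, Data.psi, Data.w, hdiv, hmod, mul_neg, mul_add, Finset.sum_neg_distrib,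
        Finset.sum_add_distrib, Int.cast_sum, Int.cast_mul, Finset.sum_mul, mul_ite, mul_zero,
        Finset.sum_ite_eq', Finset.mem_univ, if_true, Finset.sum_div]
      simp only [neg_add, sub_eq_add_neg, add_assoc]
      refine congrArg₂ _ (congrArg _ (Finset.sum_congr rfl fun c _ => by ring))
        (congrArg₂ _ (congrArg _ (Finset.sum_congr rfl fun c _ => by ring)) (congrArg _ ?_))
      field_simp
    rw [hdot, ex_add, h.hexp m hm j, Finset.sum_mul, Finset.sum_mul]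
    refine Finset.sum_congr rfl fun i _ => ?_
    rw [mul_assoc (D.γ m i), mul_assoc (D.γ m i), mul_assoc (D.γ m i), ← ex_add, ← ex_add, ← ex_add]
    congr 2
    rw [Data.cen, hj]
    push_cast
    ring
  rw [Data.approx, sum_range_blocks]
  congr 1
  simp only [Data.idx, Finset.sum_sigma, Finset.sum_product, Fintype.sum_bool, Data.T, Finset.sum_mul]
  rw [Finset.sum_congr rfl fun r _ => Finset.sum_comm, Finset.sum_comm]
  refine Finset.sum_congr rfl fun m hm => Finset.sum_congr rfl fun r _ => ?_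
  simp only [Data.atom, Bool.false_eq_true, if_false, if_true, add_mul, Finset.sum_add_distrib]
  refine congrArg₂ _ ?_ ?_
  · simp only [Data.chirp, Finset.mul_sum]
    rw [Finset.sum_comm]
    refine Finset.sum_congr rfl fun jl hjl => ?_
    have e : dotR m (x0 + D.psi (r * D.l + jl)) = dotR m x0 + dotR m (D.psi (r * D.l + jl)) := by
      simp [dotR, mul_add, Finset.sum_add_distrib]
    rw [e, ex_add, mul_assoc, mul_assoc, hstep m hm r jl (Finset.mem_range.1 hjl) τ, Finset.mul_sum,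
      Finset.mul_sum]
    exact Finset.sum_congr rfl fun i _ => by ring
  · simp only [Data.chirp, Finset.mul_sum, map_sum, map_mul]
    rw [Finset.sum_comm]
    refine Finset.sum_congr rfl fun jl hjl => ?_
    have e : -dotR m (x0 + D.psi (r * D.l + jl)) = -dotR m x0 + -dotR m (D.psi (r * D.l + jl)) := by
      rw [← neg_add]
      simp [dotR, mul_add, Finset.sum_add_distrib]
    have e2 : ex (-dotR m (D.psi (r * D.l + jl))) * ex (((r * D.l + jl : ℕ) : ℝ) * τ) =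
        conj (ex (dotR m (D.psi (r * D.l + jl))) * ex (((r * D.l + jl : ℕ) : ℝ) * -τ)) := by
      rw [map_mul, conj_ex, conj_ex, mul_neg, neg_neg]
    rw [e, ex_add, mul_assoc, mul_assoc, e2, hstep m hm r jl (Finset.mem_range.1 hjl) (-τ), map_sum,
      Finset.mul_sum, Finset.mul_sum]
    refine Finset.sum_congr rfl fun i _ => ?_
    rw [map_mul, map_mul]
    ring

end Data

end

end Vale.Agent.P130.Flat.Prop
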