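import Vale.Agent.P130.Flat.Interfaces

/-!
P130, flatness proposition: the character, orthogonality, translations of the cube, a smoothing kernel.
-/

namespace Vale.Agent.P130.Flat.Prop

open MeasureTheory Finset
open Vale.Agent.P110.Ultra (Vec dotZ dotR qOf)
open scoped ComplexConjugate

noncomputable section

theorem ex_add (x y : ℝ) : ex (x + y) = ex x * ex y := by
  rw [ex, ex, ex, ← Complex.exp_add]
  push_cast
  ring_nf

theorem ex_int (n : ℤ) : ex n = 1 := by
  rw [ex, show ((2 * Real.pi * (n : ℝ) : ℝ) : ℂ) * Complex.I = (n : ℂ) * (2 * Real.pi * Complex.I) by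
    push_cast; ring]
  exact Complex.exp_int_mul_two_pi_mul_I n

theorem ex_add_int (x : ℝ) (n : ℤ) : ex (x + n) = ex x := by rw [ex_add, ex_int, mul_one]

theorem ex_zero : ex 0 = 1 := by simpa using ex_int 0

theorem norm_ex (x : ℝ) : ‖ex x‖ = 1 := Complex.norm_exp_ofReal_mul_I _

theorem conj_ex (x : ℝ) : conj (ex x) = ex (-x) := by
  rw [ex, ex, ← Complex.exp_conj, map_mul, Complex.conj_ofReal, Complex.conj_I]
  push_cast
  ring_nf

theorem norm_ex_sub_le (x y : ℝ) : ‖ex x - ex y‖ ≤ 2 * Real.pi * |x - y| := by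
  have h : ex x - ex y = ex y * (ex (x - y) - 1) := by
    rw [mul_sub, ← ex_add, add_sub_cancel, mul_one]
  rw [h, norm_mul, norm_ex, one_mul, ex]
  rw [mul_comm _ Complex.I]
  refine (Real.norm_exp_I_mul_ofReal_sub_one_le).trans (le_of_eq ?_)
  rw [Real.norm_eq_abs, abs_mul, abs_of_pos Real.two_pi_pos]

theorem continuous_ex : Continuous ex :=
  Complex.continuous_exp.comp ((Complex.continuous_ofReal.comp (continuous_const.mul continuous_id)).mul
    continuous_const)

instance : IsProbabilityMeasure leb := ⟨by simp [leb]⟩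

theorem integral_leb_eq (f : ℝ → ℂ) : ∫ τ, f τ ∂leb = ∫ τ in (0 : ℝ)..1, f τ := by
  rw [leb, intervalIntegral.integral_of_le zero_le_one]

theorem integral_ex_int (k : ℤ) : ∫ τ, ex (k * τ) ∂leb = if k = 0 then 1 else 0 := by
  split_ifs with h
  · simp [h, ex_zero]
  rw [integral_leb_eq]
  have hc : (2 * Real.pi * (k : ℂ) * Complex.I) ≠ 0 := by
    simp [Real.pi_ne_zero, h]
  rw [show (fun τ : ℝ => ex (k * τ)) = fun τ : ℝ =>
      Complex.exp ((2 * Real.pi * (k : ℂ) * Complex.I) * (τ : ℂ)) from funext fun τ => by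
    rw [ex]; push_cast; ring_nf, integral_exp_mul_complex hc]
  have h1 : Complex.exp (2 * Real.pi * (k : ℂ) * Complex.I) = 1 := by
    rw [show (2 * Real.pi * (k : ℂ) * Complex.I) = (k : ℂ) * (2 * Real.pi * Complex.I) by ring]
    exact Complex.exp_int_mul_two_pi_mul_I k
  simp [h1]

/-- Orthogonality of the characters. -/
theorem integral_norm_sq_sum (N : ℕ) (c : ℕ → ℂ) :
    ∫ τ, ‖∑ j ∈ range N, c j * ex ((j : ℝ) * τ)‖ ^ 2 ∂leb = ∑ j ∈ range N, ‖c j‖ ^ 2 := by
  have hp : ∀ τ : ℝ, ((‖∑ j ∈ range N, c j * ex ((j : ℝ) * τ)‖ ^ 2 : ℝ) : ℂ) =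
      ∑ i ∈ range N, ∑ j ∈ range N, c i * conj (c j) * ex ((((i : ℤ) - j : ℤ) : ℝ) * τ) := by
    intro τ
    rw [Complex.ofReal_pow, ← Complex.mul_conj', map_sum, Finset.sum_mul_sum]
    refine Finset.sum_congr rfl fun i _ => Finset.sum_congr rfl fun j _ => ?_
    rw [map_mul, conj_ex, mul_mul_mul_comm, ← ex_add]
    push_cast
    ring_nf
  have hi : ∀ (a : ℂ) (k : ℤ), Integrable (fun τ => a * ex ((k : ℝ) * τ)) leb := fun a k =>
    Integrable.of_bound (by exact (continuous_const.mul (continuous_ex.comp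
      (continuous_const.mul continuous_id))).aestronglyMeasurable) ‖a‖
      (Filter.Eventually.of_forall fun τ => by rw [norm_mul, norm_ex, mul_one])
  apply Complex.ofReal_injective
  rw [← integral_complex_ofReal]
  simp only [hp]
  rw [integral_finsetSum _ fun i _ => integrable_finsetSum _ fun j _ => hi _ _]
  simp only [Complex.ofReal_sum, Complex.ofReal_pow]
  refine Finset.sum_congr rfl fun i hi' => ?_
  rw [integral_finsetSum _ fun j _ => hi _ _, Finset.sum_eq_single i]
  · rw [integral_const_mul, integral_ex_int, sub_self, if_pos rfl, mul_one, ← Complex.mul_conj']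
  · intro j _ hj
    rw [integral_const_mul, integral_ex_int, if_neg (sub_ne_zero.2 (by exact_mod_cast hj.symm)), mul_zero]
  · exact fun h => absurd hi' h

theorem volume_cube (d : ℕ) : (volume : Measure (Fin (d + 1) → ℝ)) (cube d) = 1 := by
  rw [cube, volume_pi, Measure.pi_pi]
  simp

/-- Translation followed by the fractional part preserves the unit interval. -/
theorem measurePreserving_fract (a : ℝ) :
    MeasurePreserving (fun x => Int.fract (x + a)) (volume.restrict (Set.Ico (0 : ℝ) 1))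
      (volume.restrict (Set.Ico (0 : ℝ) 1)) := by
  have hm : Measurable fun x => Int.fract (x + a) := (measurable_id.add_const a).fract
  refine ⟨hm, Measure.ext fun s hs => ?_⟩
  have : IsFiniteMeasure (volume.restrict (Set.Ico (0 : ℝ) 1)) :=
    isFiniteMeasure_restrict.2 (by simp)
  rw [← measureReal_eq_measureReal_iff, ← integral_indicator_one hs, ← integral_indicator_one hs,
    integral_map hm.aemeasurable ((stronglyMeasurable_one.indicator hs).aestronglyMeasurable)]
  set φ : ℝ → ℝ := fun x => s.indicator (fun _ => (1 : ℝ)) (Int.fract x) with hφ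
  have hper : Function.Periodic φ 1 := fun x => by simp only [hφ, Int.fract_add_one]
  have e1 : ∀ b : ℝ, ∫ x in Set.Ico (0 : ℝ) 1, φ (x + b) = ∫ x in b..b + 1, φ x := by
    intro b
    rw [integral_Ico_eq_integral_Ioc, ← intervalIntegral.integral_of_le zero_le_one,
      intervalIntegral.integral_comp_add_right, zero_add, add_comm]
  have e2 : ∫ x in Set.Ico (0 : ℝ) 1, s.indicator (fun _ => (1 : ℝ)) x =
      ∫ x in Set.Ico (0 : ℝ) 1, φ (x + 0) := by
    refine setIntegral_congr_fun measurableSet_Ico fun x hx => ?_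
    simp only [hφ, add_zero, Int.fract_eq_self.2 hx]
  show ∫ x in Set.Ico (0 : ℝ) 1, φ (x + a) = ∫ x in Set.Ico (0 : ℝ) 1, s.indicator (fun _ => (1 : ℝ)) x
  rw [e2, e1, e1, hper.intervalIntegral_add_eq a 0]

/-- Translations of the torus preserve integrals over the cube. -/
theorem measurePreserving_cube {d : ℕ} (v : Fin (d + 1) → ℝ) :
    MeasurePreserving (fun x i => Int.fract (x i + v i)) (volume.restrict (cube d))
      (volume.restrict (cube d)) := by
  rw [cube, volume_pi, Measure.restrict_pi_pi]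
  have : ∀ _i : Fin (d + 1), IsFiniteMeasure (volume.restrict (Set.Ico (0 : ℝ) 1)) :=
    fun _ => isFiniteMeasure_restrict.2 (by simp)
  exact measurePreserving_pi _ _ fun i => measurePreserving_fract (v i)

/-- The smoothing kernel `cos (π u) ^ (2 K)`, normalised. -/
def ker (K : ℕ) (u : ℝ) : ℝ := (4 : ℝ) ^ K / K.centralBinom * Real.cos (Real.pi * u) ^ (2 * K)

/-- The coefficients of the kernel. -/
def kerCoef (K : ℕ) (k : ℤ) : ℂ := ((Nat.choose (2 * K) ((K : ℤ) + k).toNat : ℝ) / K.centralBinom : ℝ)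

theorem ker_nonneg (K : ℕ) (u : ℝ) : 0 ≤ ker K u :=
  mul_nonneg (by positivity) ((even_two_mul K).pow_nonneg _)

theorem ker_eq_sum (K : ℕ) (u : ℝ) :
    ((ker K u : ℝ) : ℂ) = ∑ k ∈ Finset.Icc (-(K : ℤ)) K, kerCoef K k * ex ((k : ℝ) * u) := by
  have hc : (K.centralBinom : ℂ) ≠ 0 := Nat.cast_ne_zero.2 K.centralBinom_ne_zero
  set a : ℂ := Complex.exp ((Real.pi * u : ℝ) * Complex.I) with ha
  set b : ℂ := Complex.exp (-((Real.pi * u : ℝ) : ℂ) * Complex.I) with hb
  have hcos : ((Real.cos (Real.pi * u) : ℝ) : ℂ) * 2 = a + b := by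
    rw [Complex.ofReal_cos, mul_comm, Complex.two_cos]
  have h4 : ((ker K u : ℝ) : ℂ) = (a + b) ^ (2 * K) / K.centralBinom := by
    rw [ker, ← hcos, mul_pow, pow_mul (2 : ℂ)]
    push_cast
    norm_num
    ring
  rw [h4, add_pow, Finset.sum_div]
  refine Finset.sum_bij' (fun i _ => (i : ℤ) - K) (fun k _ => ((K : ℤ) + k).toNat) ?_ ?_ ?_ ?_ ?_
  · intro i hi
    simp only [Finset.mem_range] at hi
    simp only [Finset.mem_Icc]
    omega
  · intro k hk
    simp only [Finset.mem_Icc] at hk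
    simp only [Finset.mem_range]
    omega
  · intro i _
    simp
  · intro k hk
    simp only [Finset.mem_Icc] at hk
    omega
  · intro i hi
    simp only [Finset.mem_range] at hi
    simp only [kerCoef, add_sub_cancel, Int.toNat_natCast, ex, ha, hb, ← Complex.exp_nat_mul,
      ← Complex.exp_add]
    rw [Nat.cast_sub (show i ≤ 2 * K by omega)]
    push_cast
    ring_nf

theorem continuous_ker (K : ℕ) : Continuous (ker K) :=
  continuous_const.mul ((Real.continuous_cos.comp (continuous_const.mul continuous_id)).pow _)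

theorem integral_ker (K : ℕ) (θ : ℝ) : ∫ v, ker K (θ - v) ∂leb = 1 := by
  apply Complex.ofReal_injective
  rw [← integral_complex_ofReal]
  simp only [ker_eq_sum]
  have hi : ∀ k : ℤ, Integrable (fun v => kerCoef K k * ex ((k : ℝ) * (θ - v))) leb := fun k =>
    Integrable.of_bound (by exact (continuous_const.mul (continuous_ex.comp
      (continuous_const.mul (continuous_const.sub continuous_id)))).aestronglyMeasurable) ‖kerCoef K k‖
      (Filter.Eventually.of_forall fun τ => by rw [norm_mul, norm_ex, mul_one])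
  rw [integral_finsetSum _ fun k _ => hi k, Finset.sum_eq_single 0]
  · simp [kerCoef, ex_zero, Nat.centralBinom_eq_two_mul_choose, (Nat.choose_pos (show K ≤ 2 * K by omega)).ne']
  · intro k _ hk
    have h : (fun v => kerCoef K k * ex ((k : ℝ) * (θ - v))) =
        fun v => kerCoef K k * ex ((k : ℝ) * θ) * ex ((((-k : ℤ)) : ℝ) * v) := funext fun v => by
      rw [mul_assoc, ← ex_add]
      push_cast
      ring_nf
    rw [h, integral_const_mul, integral_ex_int, if_neg (neg_ne_zero.2 hk), mul_zero]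
  · intro h
    simp at h

theorem ker_le {K : ℕ} (hK : 4 ≤ K) {η u : ℝ} (hη : 0 ≤ η) (h1 : η ≤ |u|) (h2 : |u| ≤ 1 - η) :
    ker K u ≤ K * (Real.cos (Real.pi * η) ^ 2) ^ K := by
  have hc : (0 : ℝ) < K.centralBinom := Nat.cast_pos.2 K.centralBinom_pos
  have h4 : (4 : ℝ) ^ K / K.centralBinom ≤ K := by
    rw [div_le_iff₀ hc]
    exact_mod_cast (Nat.four_pow_lt_mul_centralBinom K hK).le
  have habs : |Real.cos (Real.pi * u)| ≤ |Real.cos (Real.pi * η)| := by
    have hη2 : η ≤ 1 / 2 := by linarith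
    have hp : 0 ≤ Real.cos (Real.pi * η) :=
      Real.cos_nonneg_of_mem_Icc ⟨by nlinarith [Real.pi_pos], by nlinarith [Real.pi_pos]⟩
    rw [abs_of_nonneg hp, ← Real.cos_abs, abs_mul, abs_of_pos Real.pi_pos, abs_le]
    refine ⟨?_, Real.cos_le_cos_of_nonneg_of_le_pi (by positivity) (by nlinarith [Real.pi_pos])
      (mul_le_mul_of_nonneg_left h1 Real.pi_pos.le)⟩
    rw [← Real.cos_pi_sub]
    exact Real.cos_le_cos_of_nonneg_of_le_pi (by positivity) (by nlinarith [Real.pi_pos])
      (by nlinarith [Real.pi_pos])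
  rw [ker, pow_mul]
  refine mul_le_mul h4 (pow_le_pow_left₀ (sq_nonneg _) (sq_le_sq.2 habs) K) (by positivity) (by positivity)

/-- A lower bound for a real part of a pairing. -/
theorem pairing_ge (t : ℝ) (ht : 0 < t) (F M : ℂ) :
    (1 - t) * ‖F‖ ^ 2 - (1 / t) * ‖F - M‖ ^ 2 ≤ (F * conj M).re := by
  have h : (F * conj M).re = ‖F‖ ^ 2 - (F * conj (F - M)).re := by
    rw [map_sub, mul_sub, Complex.sub_re, Complex.mul_conj', ← Complex.ofReal_pow, Complex.ofReal_re]
    ring
  have h2 : (F * conj (F - M)).re ≤ ‖F‖ * ‖F - M‖ := by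
    refine (Complex.re_le_norm _).trans (le_of_eq ?_)
    rw [norm_mul, Complex.norm_conj]
  have h3 : ‖F‖ * ‖F - M‖ ≤ t * ‖F‖ ^ 2 + (1 / t) * ‖F - M‖ ^ 2 := by
    have e : t * ‖F‖ ^ 2 + (1 / t) * ‖F - M‖ ^ 2 - 2 * (‖F‖ * ‖F - M‖) =
        (1 / t) * (t * ‖F‖ - ‖F - M‖) ^ 2 := by field_simp; ring
    have : 0 ≤ (1 / t) * (t * ‖F‖ - ‖F - M‖) ^ 2 := by positivity
    nlinarith [mul_nonneg (norm_nonneg F) (norm_nonneg (F - M))]
  rw [h]
  linarith

end

end Vale.Agent.P130.Flat.Prop
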