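import Vale.Agent.P130.Flat.Prop.Atoms

/-!
P130, flatness proposition: averaged over the base point, the main term pairs almost fully with the polynomial.
-/

namespace Vale.Agent.P130.Flat.Prop

open MeasureTheory Finset
open Vale.Agent.P110.Ultra (Vec dotZ dotR qOf)
open scoped ComplexConjugate

noncomputable section

theorem integrable_bdd {X E : Type} [MeasurableSpace X] [NormedAddCommGroup E] [MeasurableSpace E]
    [BorelSpace E] [SecondCountableTopology E] {μ : Measure X} [IsFiniteMeasure μ] {f : X → E}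
    (hf : Measurable f) (C : ℝ) (h : ∀ x, ‖f x‖ ≤ C) : Integrable f μ :=
  Integrable.of_bound hf.aestronglyMeasurable C (Filter.Eventually.of_forall h)

instance (d : ℕ) : IsProbabilityMeasure ((volume : Measure (Fin (d + 1) → ℝ)).restrict (cube d)) :=
  ⟨by rw [Measure.restrict_apply_univ, volume_cube]⟩

theorem ae_fract_ne (p : ℕ) (hp : 0 < p) : ∀ᵐ τ ∂leb, Int.fract ((p : ℝ) * τ) ≠ 0 := by
  refine ae_restrict_of_ae (Filter.eventually_iff_exists_mem.2
    ⟨(Set.range fun z : ℤ => (z : ℝ) / p)ᶜ, compl_mem_ae_iff.2 ((Set.countable_range _).measure_zero _), ?_⟩)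
  intro τ hτ h
  refine hτ ⟨⌊(p : ℝ) * τ⌋, ?_⟩
  have := Int.floor_add_fract ((p : ℝ) * τ)
  rw [h, add_zero] at this
  simp only [this]
  field_simp

theorem measurable_dotR {d : ℕ} (m : Vec d) : Measurable (dotR m) := by
  unfold dotR
  exact Finset.measurable_sum _ fun i _ => (measurable_pi_apply i).const_mul _

theorem measurable_ex : Measurable ex := continuous_ex.measurable

variable {d : ℕ}

/-- The base point moved by a shift, inside the cube. -/
def move (v x : Fin (d + 1) → ℝ) : Fin (d + 1) → ℝ := fun i => Int.fract (x i + v i)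

theorem measurable_move (v : Fin (d + 1) → ℝ) : Measurable (move v) :=
  measurable_pi_iff.2 fun i => ((measurable_pi_apply i).add_const _).fract

theorem move_mem (v x : Fin (d + 1) → ℝ) : move v x ∈ cube d :=
  fun i _ => ⟨Int.fract_nonneg _, Int.fract_lt_one _⟩

theorem dotR_move (m : Vec d) (v x : Fin (d + 1) → ℝ) :
    ∃ z : ℤ, dotR m (x + v) = dotR m (move v x) + z := by
  refine ⟨∑ i, m i * ⌊x i + v i⌋, ?_⟩
  simp only [dotR, move, Int.cast_sum, Int.cast_mul, Pi.add_apply, ← Finset.sum_add_distrib, ← mul_add,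
    Int.fract_add_floor]

namespace Data

variable (D : Data d) (H : (Fin (d + 1) → ℝ) → ℕ)

/-- The positions. -/
def pos (x0 : Fin (d + 1) → ℝ) (j : ℕ) : ℕ := H (move (D.psi j) x0)

/-- The two-variable polynomial at a base point. -/
def poly (τ θ : ℝ) (x0 : Fin (d + 1) → ℝ) : ℂ := flatF D.N (D.pos H x0) τ θ

/-- The pairing of the polynomial with the main term. -/
def pair (θ v : ℝ) (x0 : Fin (d + 1) → ℝ) : ℝ := ∫ τ, (D.poly H τ θ x0 * conj (D.main τ v x0)).re ∂leb

theorem T_move (θ : ℝ) (v x : Fin (d + 1) → ℝ) : D.T θ (x + v) = D.T θ (move v x) := by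
  refine Finset.sum_congr rfl fun m _ => ?_
  obtain ⟨z, hz⟩ := dotR_move m v x
  rw [hz, ex_add_int, show -(dotR m (move v x) + (z : ℝ)) = -dotR m (move v x) + ((-z : ℤ) : ℝ) by
    push_cast; ring, ex_add_int]

theorem measurable_T (θ : ℝ) : Measurable (D.T θ) :=
  Finset.measurable_sum _ fun m _ => ((measurable_ex.comp (measurable_dotR m)).const_mul _).add
    ((measurable_ex.comp (measurable_dotR m).neg).const_mul _)

variable {D H} (hH : Measurable H) (hΦm : ∀ m ∈ D.W.S, Measurable (D.Φ m))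
  (hab : ∀ m, Measurable (D.a m) ∧ Measurable (D.b m))

include hH in
theorem measurable_poly : Measurable fun q : ℝ × ℝ × (Fin (d + 1) → ℝ) => D.poly H q.1 q.2.1 q.2.2 := by
  unfold Data.poly flatF Data.pos
  refine Measurable.const_mul (Finset.measurable_sum _ fun j _ => measurable_ex.comp ?_) _
  exact (measurable_const.mul measurable_fst).add
    (((measurable_from_top (f := fun n : ℕ => (n : ℝ))).comp
      (hH.comp ((measurable_move _).comp (measurable_snd.comp measurable_snd)))).mul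
      (measurable_fst.comp measurable_snd))

include hΦm hab in
theorem measurable_main : Measurable fun q : ℝ × ℝ × (Fin (d + 1) → ℝ) => D.main q.1 q.2.1 q.2.2 := by
  unfold Data.main
  refine Measurable.ite (((measurable_const.mul measurable_fst).fract) (measurableSet_singleton 0))
    measurable_const (Measurable.const_mul (Finset.measurable_sum _ fun z hz => ?_) _)
  simp only [Data.idx, Finset.mem_sigma] at hz
  have hθ : Measurable fun q : ℝ × ℝ × (Fin (d + 1) → ℝ) => q.2.1 := measurable_fst.comp measurable_snd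
  have hx : Measurable fun q : ℝ × ℝ × (Fin (d + 1) → ℝ) => dotR z.1 q.2.2 :=
    (measurable_dotR _).comp (measurable_snd.comp measurable_snd)
  unfold Data.atom
  by_cases hβ : z.2.2 = true
  · simp only [hβ, if_true]
    exact (((hab z.1).1.comp hθ).mul (measurable_ex.comp hx)).mul
      (((measurable_ex.comp ((measurable_fst.sub_const _).const_mul _)).const_mul _).mul
        ((hΦm _ hz.1).comp (measurable_fst.sub_const _)))
  · simp only [hβ, if_false, Bool.false_eq_true]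
    exact (((hab z.1).2.comp hθ).mul (measurable_ex.comp hx.neg)).mul
      (Complex.continuous_conj.measurable.comp
        (((measurable_ex.comp ((measurable_fst.neg.sub_const _).const_mul _)).const_mul _).mul
          ((hΦm _ hz.1).comp (measurable_fst.neg.sub_const _))))

theorem norm_flatF_le (N : ℕ) (s : ℕ → ℕ) (τ θ : ℝ) : ‖flatF N s τ θ‖ ≤ N := by
  rw [flatF, norm_mul, Complex.norm_real, Real.norm_eq_abs, abs_inv, abs_of_nonneg (Real.sqrt_nonneg _)]
  rcases Nat.eq_zero_or_pos N with rfl | hN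
  · simp
  refine (mul_le_mul_of_nonneg_left ((norm_sum_le _ _).trans (le_of_eq ?_))
    (inv_nonneg.2 (Real.sqrt_nonneg _))).trans (mul_le_of_le_one_left (Nat.cast_nonneg N)
      (inv_le_one_of_one_le₀ (Real.one_le_sqrt.2 (Nat.one_le_cast.2 hN))))
  simp [norm_ex]

/-- The square mean of the polynomial is one. -/
theorem integral_norm_sq_poly (hN : 0 < D.N) (θ : ℝ) (x0 : Fin (d + 1) → ℝ) :
    ∫ τ, ‖D.poly H τ θ x0‖ ^ 2 ∂leb = 1 := by
  have hN' : (0 : ℝ) < D.N := Nat.cast_pos.2 hN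
  have h : ∀ τ, ‖D.poly H τ θ x0‖ ^ 2 = (D.N : ℝ)⁻¹ *
      ‖∑ j ∈ range D.N, ex ((D.pos H x0 j : ℝ) * θ) * ex ((j : ℝ) * τ)‖ ^ 2 := fun τ => by
    rw [Data.poly, flatF, norm_mul, mul_pow, Complex.norm_real, Real.norm_eq_abs, sq_abs, inv_pow,
      Real.sq_sqrt hN'.le]
    simp only [ex_add, mul_comm]
  simp only [h]
  rw [integral_const_mul, integral_norm_sq_sum]
  simp [norm_ex, hN'.ne']

/-- Moving the second variable moves the polynomial little. -/
theorem integral_norm_sq_poly_sub (hN : 0 < D.N) (A : ℕ) (hA : ∀ x ∈ cube d, H x < A) (θ v : ℝ)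
    (x0 : Fin (d + 1) → ℝ) :
    ∫ τ, ‖D.poly H τ θ x0 - D.poly H τ v x0‖ ^ 2 ∂leb ≤ (2 * Real.pi * A * |θ - v|) ^ 2 := by
  have hN' : (0 : ℝ) < D.N := Nat.cast_pos.2 hN
  have h : ∀ τ, ‖D.poly H τ θ x0 - D.poly H τ v x0‖ ^ 2 = (D.N : ℝ)⁻¹ *
      ‖∑ j ∈ range D.N, (ex ((D.pos H x0 j : ℝ) * θ) - ex ((D.pos H x0 j : ℝ) * v)) * ex ((j : ℝ) * τ)‖ ^ 2 :=
    fun τ => by
    rw [Data.poly, Data.poly, flatF, flatF, ← mul_sub, norm_mul, mul_pow, Complex.norm_real,
      Real.norm_eq_abs, sq_abs, inv_pow, Real.sq_sqrt hN'.le, ← Finset.sum_sub_distrib]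
    congr 3
    refine Finset.sum_congr rfl fun j _ => ?_
    rw [ex_add, ex_add, mul_comm (D.pos H x0 j : ℝ), mul_comm (D.pos H x0 j : ℝ)]
    ring
  simp only [h]
  rw [integral_const_mul, integral_norm_sq_sum, inv_mul_le_iff₀ hN']
  refine (Finset.sum_le_card_nsmul _ _ ((2 * Real.pi * A * |θ - v|) ^ 2) fun j _ => ?_).trans
    (le_of_eq (by simp))
  refine pow_le_pow_left₀ (norm_nonneg _) ((norm_ex_sub_le _ _).trans ?_) 2
  rw [← mul_sub, abs_mul, Nat.abs_cast, ← mul_assoc]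
  gcongr
  exact_mod_cast (hA _ (move_mem _ _)).le

/-- The error of the waveform, averaged over the base point. -/
theorem integral_err_le (h : D.Ok) (hH : Measurable H) (hN : 0 < D.N) (hlN : D.R * D.l ≤ D.N)
    (hrest : D.N - D.R * D.l ≤ D.R) (θ : ℝ) {ε : ℝ} (hε : 0 ≤ ε)
    (hwave : ∫ x in cube d, ‖ex (θ * H x) - D.T θ x‖ ^ 2 ≤ ε) :
    ∫ x0 in cube d, ∫ τ, ‖D.poly H τ θ x0 - D.approx τ θ x0‖ ^ 2 ∂leb ≤ ε + (D.R : ℝ) / D.N := by
  have hN' : (0 : ℝ) < D.N := Nat.cast_pos.2 hN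
  set c : (Fin (d + 1) → ℝ) → ℕ → ℂ := fun x0 j =>
    ex ((D.pos H x0 j : ℝ) * θ) - (if j < D.R * D.l then D.T θ (x0 + D.psi j) else 0) with hc
  have hpt : ∀ x0, ∫ τ, ‖D.poly H τ θ x0 - D.approx τ θ x0‖ ^ 2 ∂leb =
      (D.N : ℝ)⁻¹ * ∑ j ∈ range D.N, ‖c x0 j‖ ^ 2 := fun x0 => by
    rw [← integral_norm_sq_sum, ← integral_const_mul]
    refine integral_congr_ae (Filter.Eventually.of_forall fun τ => ?_)
    have e : ∑ j ∈ range (D.R * D.l), D.T θ (x0 + D.psi j) * ex ((j : ℝ) * τ) =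
        ∑ j ∈ range D.N, (if j < D.R * D.l then D.T θ (x0 + D.psi j) else 0) * ex ((j : ℝ) * τ) := by
      rw [← Finset.sum_filter_add_sum_filter_not (range D.N) (fun j => j < D.R * D.l),
        Finset.sum_eq_zero (s := (range D.N).filter fun j => ¬ j < D.R * D.l)
          (fun j hj => by rw [if_neg (Finset.mem_filter.1 hj).2, zero_mul]), add_zero]
      refine Finset.sum_congr (Finset.ext fun j => ?_) fun j hj => by
        rw [if_pos (Finset.mem_filter.1 hj).2]
      simp only [Finset.mem_filter, Finset.mem_range]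
      omega
    show ‖D.poly H τ θ x0 - D.approx τ θ x0‖ ^ 2 = _
    rw [Data.poly, flatF, Data.approx, e, ← mul_sub, norm_mul, mul_pow, Complex.norm_real,
      Real.norm_eq_abs, sq_abs, inv_pow, Real.sq_sqrt hN'.le, ← Finset.sum_sub_distrib]
    congr 3
    refine Finset.sum_congr rfl fun j _ => ?_
    simp only [hc, sub_mul, ex_add]
    ring
  simp only [hpt]
  have hTb : ∀ x, ‖D.T θ x‖ ≤ ∑ m ∈ D.W.S, (‖D.a m θ‖ + ‖D.b m θ‖) := fun x =>
    (norm_sum_le _ _).trans (Finset.sum_le_sum fun m _ => (norm_add_le _ _).trans (le_of_eq (by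
      rw [norm_mul, norm_mul, norm_ex, norm_ex, mul_one, mul_one])))
  set C := (1 + ∑ m ∈ D.W.S, (‖D.a m θ‖ + ‖D.b m θ‖)) ^ 2 with hC
  have hC1 : 1 ≤ 1 + ∑ m ∈ D.W.S, (‖D.a m θ‖ + ‖D.b m θ‖) :=
    le_add_of_nonneg_right (Finset.sum_nonneg fun m _ => by positivity)
  have hcm : ∀ j, Measurable fun x0 => ‖c x0 j‖ ^ 2 := fun j => by
    simp only [hc]
    refine ((Measurable.sub (measurable_ex.comp (((measurable_from_top (f := fun n : ℕ => (n : ℝ))).comp
      (hH.comp (measurable_move _))).mul_const _)) ?_).norm).pow_const 2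
    split_ifs
    · exact (D.measurable_T θ).comp (measurable_id.add_const _)
    · exact measurable_const
  have hcb : ∀ j x0, ‖‖c x0 j‖ ^ 2‖ ≤ C := fun j x0 => by
    rw [Real.norm_eq_abs, abs_of_nonneg (sq_nonneg _)]
    refine pow_le_pow_left₀ (norm_nonneg _) ((norm_sub_le _ _).trans ?_) 2
    rw [norm_ex]
    refine add_le_add le_rfl ?_
    split_ifs
    · exact hTb _
    · rw [norm_zero]; exact Finset.sum_nonneg fun m _ => by positivity
  rw [integral_const_mul, integral_finsetSum _ fun j _ => integrable_bdd (hcm j) C (hcb j),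
    inv_mul_le_iff₀ hN']
  have hj1 : ∀ j < D.R * D.l, ∫ x0 in cube d, ‖c x0 j‖ ^ 2 ≤ ε := fun j hj => by
    refine le_trans (le_of_eq ?_) hwave
    have hmp := measurePreserving_cube (D.psi j)
    have hgm : Measurable fun x => ‖ex (θ * H x) - D.T θ x‖ ^ 2 :=
      ((Measurable.sub (measurable_ex.comp (((measurable_from_top (f := fun n : ℕ => (n : ℝ))).comp
        hH).const_mul _)) (D.measurable_T θ)).norm).pow_const 2
    conv_rhs => rw [← hmp.map_eq, integral_map hmp.measurable.aemeasurable hgm.aestronglyMeasurable]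
    refine integral_congr_ae (Filter.Eventually.of_forall fun x0 => ?_)
    simp only [hc, if_pos hj, Data.pos, T_move, mul_comm θ]
    rfl
  have hj2 : ∀ j ∈ range D.N, ¬ j < D.R * D.l → ∫ x0 in cube d, ‖c x0 j‖ ^ 2 = 1 := fun j _ hj => by
    simp [hc, hj, norm_ex, volume_cube, measureReal_def]
  rw [← Finset.sum_filter_add_sum_filter_not (range D.N) (fun j => j < D.R * D.l)]
  refine (add_le_add (Finset.sum_le_card_nsmul _ _ ε fun j hj => hj1 j (Finset.mem_filter.1 hj).2)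
    (le_of_eq (Finset.sum_congr rfl fun j hj => hj2 j (Finset.mem_filter.1 hj).1
      (Finset.mem_filter.1 hj).2))).trans ?_
  rw [nsmul_eq_mul, Finset.sum_const, nsmul_eq_mul, mul_one, mul_add, mul_div_cancel₀ _ hN'.ne']
  refine add_le_add (mul_le_mul_of_nonneg_right (Nat.cast_le.2 ?_) hε) (Nat.cast_le.2 ?_)
  · exact (Finset.card_filter_le _ _).trans (le_of_eq (Finset.card_range _))
  · refine le_trans (le_trans (Finset.card_le_card (t := Finset.Ico (D.R * D.l) D.N) fun j hj => ?_)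
      (le_of_eq (Nat.card_Ico _ _))) hrest
    simp only [Finset.mem_filter, Finset.mem_range, Finset.mem_Ico] at hj ⊢
    omega

/-- The chirp atoms are close to the flat atoms. -/
theorem integral_approx_sub_main_le (h : D.Ok) (hΦm : ∀ m ∈ D.W.S, Measurable (D.Φ m)) (hN : 0 < D.N)
    (hlN : D.R * D.l ≤ D.N) (hR : 0 < D.R) (θ : ℝ) (x0 : Fin (d + 1) → ℝ) {ε : ℝ} (hε : 0 ≤ ε)
    (hep : ∀ m ∈ D.W.S, ∫ u, ‖D.chirp m u - D.Φ m u‖ ^ 2 ∂leb ≤ ε * D.l) :
    ∫ τ, ‖D.approx τ θ x0 - D.main τ θ x0‖ ^ 2 ∂leb ≤ (D.idx.card : ℝ) ^ 2 * ε := by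
  have hN' : (0 : ℝ) < D.N := Nat.cast_pos.2 hN
  obtain ⟨a, hv⟩ := h.valid
  have hae : ∀ᵐ τ ∂leb, ‖D.approx τ θ x0 - D.main τ θ x0‖ ^ 2 ≤
      (D.N : ℝ)⁻¹ * ((D.idx.card : ℝ) * ∑ z ∈ D.idx,
        ‖D.chirp z.1 ((if z.2.2 then τ else -τ) - D.cen z.1 z.2.1.1 z.2.1.2) -
          D.Φ z.1 ((if z.2.2 then τ else -τ) - D.cen z.1 z.2.1.1 z.2.1.2)‖ ^ 2) := by
    filter_upwards [ae_fract_ne D.p (p_pos h)] with τ hτ
    rw [approx_eq h, Data.main, if_neg hτ, ← mul_sub, ← Finset.sum_sub_distrib, norm_mul, mul_pow,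
      Complex.norm_real, Real.norm_eq_abs, sq_abs, inv_pow, Real.sq_sqrt hN'.le]
    refine mul_le_mul_of_nonneg_left ((norm_sum_sq_le _ _).trans
      (mul_le_mul_of_nonneg_left (Finset.sum_le_sum fun z hz => ?_) (Nat.cast_nonneg _))) (by positivity)
    simp only [Data.idx, Finset.mem_sigma, Finset.mem_product, Finset.mem_range, Finset.mem_univ,
      and_true] at hz
    obtain ⟨hm, -, hi⟩ := hz
    have hf1 : D.W.f z.1 ≤ 1 := by
      refine le_trans ?_ (hv.load (D.W.lo z.1))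
      refine le_trans ?_ (Finset.single_le_sum (fun m hm' => mul_nonneg (hv.pos m hm').le
        (add_nonneg (Set.indicator_nonneg (fun _ _ => zero_le_one) _)
          (Set.indicator_nonneg (fun _ _ => zero_le_one) _))) hm)
      rw [Set.indicator_of_mem (Set.left_mem_Icc.2 (hv.arc z.1 hm).2.1)]
      refine le_mul_of_one_le_right (hv.pos _ hm).le (le_add_of_nonneg_right
        (Set.indicator_nonneg (fun _ _ => zero_le_one) _))
    have hco : ∀ (c : ℂ) (x : ℝ), ‖c‖ ^ 2 = D.W.f z.1 *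
        (Set.Icc (D.W.lo z.1) (D.W.hi z.1)).indicator 1 x → ‖c‖ ≤ 1 := fun c x hc => by
      refine (sq_le_one_iff₀ (norm_nonneg _)).1 ?_
      rw [hc]
      exact (mul_le_of_le_one_right (hv.pos _ hm).le
        (Set.indicator_le_self' (fun _ _ => zero_le_one) _)).trans hf1
    have hγ : ‖D.γ z.1 z.2.1.2‖ ≤ 1 := by
      refine (sq_le_one_iff₀ (norm_nonneg _)).1 ?_
      rw [h.hγ _ hm _ hi]
      exact inv_le_one_of_one_le₀ (Nat.one_le_cast.2 (K_pos h hm))
    refine pow_le_pow_left₀ (norm_nonneg _) ?_ 2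
    rcases z with ⟨m, ⟨r, i⟩, β⟩
    cases β <;> simp only [Data.atom, Bool.false_eq_true, if_false, if_true, ← mul_sub, ← map_sub,
      norm_mul, Complex.norm_conj, norm_ex, mul_one]
    · exact mul_le_of_le_one_left (by positivity) (hco _ _ (h.hab m hm θ).2) |>.trans
        (mul_le_of_le_one_left (norm_nonneg _) hγ)
    · exact mul_le_of_le_one_left (by positivity) (hco _ _ (h.hab m hm θ).1) |>.trans
        (mul_le_of_le_one_left (norm_nonneg _) hγ)
  have hper : ∀ m ∈ D.W.S, Function.Periodic (fun u => ‖D.chirp m u - D.Φ m u‖ ^ 2) 1 := fun m hm u => by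
    have hc : D.chirp m (u + 1) = D.chirp m u := Finset.sum_congr rfl fun j _ => by
      rw [show (j : ℝ) * (u + 1) - D.w m * (j : ℝ) ^ 2 / (2 * D.l) =
        (j : ℝ) * u - D.w m * (j : ℝ) ^ 2 / (2 * D.l) + ((j : ℤ) : ℝ) by push_cast; ring, ex_add_int]
    simp only [hc, h.hΦp m hm u]
  have hint : ∀ z ∈ D.idx, Integrable (fun τ : ℝ =>
      ‖D.chirp z.1 ((if z.2.2 then τ else -τ) - D.cen z.1 z.2.1.1 z.2.1.2) -
        D.Φ z.1 ((if z.2.2 then τ else -τ) - D.cen z.1 z.2.1.1 z.2.1.2)‖ ^ 2) leb := fun z hz => by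
    have hm : z.1 ∈ D.W.S := (Finset.mem_sigma.1 hz).1
    have harg : Measurable fun τ : ℝ => (if z.2.2 then τ else -τ) - D.cen z.1 z.2.1.1 z.2.1.2 := by
      split_ifs
      · exact measurable_id.sub_const _
      · exact measurable_id.neg.sub_const _
    refine integrable_bdd (((Measurable.sub ((Finset.measurable_sum _ fun j _ => measurable_ex.comp
      ((measurable_id.const_mul _).sub_const _)).comp harg) ((hΦm _ hm).comp harg)).norm).pow_const 2)
      (((D.l : ℝ) + Real.sqrt (D.l / D.w z.1)) ^ 2) fun τ => ?_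
    rw [Real.norm_eq_abs, abs_of_nonneg (sq_nonneg _)]
    refine pow_le_pow_left₀ (norm_nonneg _) ((norm_sub_le _ _).trans (add_le_add ?_ ?_)) 2
    · exact (norm_sum_le _ _).trans (le_of_eq (by simp [norm_ex]))
    · rw [h.hΦ _ hm]
      split_ifs <;> first | exact le_rfl | exact Real.sqrt_nonneg _
  refine (integral_mono_of_nonneg (Filter.Eventually.of_forall fun τ => sq_nonneg _)
    (((integrable_finsetSum _ hint).const_mul _).const_mul _) hae).trans ?_
  rw [integral_const_mul, integral_const_mul, integral_finsetSum _ hint, inv_mul_le_iff₀ hN', sq,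
    mul_assoc (D.idx.card : ℝ), mul_left_comm (D.N : ℝ)]
  refine mul_le_mul_of_nonneg_left ((Finset.sum_le_card_nsmul _ _ (ε * D.l) fun z hz => ?_).trans
    (le_of_eq (nsmul_eq_mul _ _) |>.trans ?_)) (Nat.cast_nonneg _)
  · rw [integral_periodic_affine (fun u => ‖D.chirp z.1 u - D.Φ z.1 u‖ ^ 2) (hper _ (Finset.mem_sigma.1 hz).1)]
    exact hep _ (Finset.mem_sigma.1 hz).1
  · rw [mul_left_comm (D.N : ℝ)]
    refine mul_le_mul_of_nonneg_left ?_ (Nat.cast_nonneg _)
    rw [mul_comm (D.N : ℝ)]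
    refine mul_le_mul_of_nonneg_left (Nat.cast_le.2 ?_) hε
    exact (Nat.le_mul_of_pos_left _ hR).trans hlN

end Data

/-- An averaged lower bound for a pairing by square errors. -/
theorem pairing_avg {X : Type} [MeasurableSpace X] (μ : Measure X) [IsProbabilityMeasure μ] {F A M : X × ℝ → ℂ}
    (hF : Measurable F) (hA : Measurable A) (hM : Measurable M) {CF CA CM : ℝ} (bF : ∀ q, ‖F q‖ ≤ CF)
    (bA : ∀ q, ‖A q‖ ≤ CA) (bM : ∀ q, ‖M q‖ ≤ CM) {t e1 e2 : ℝ} (ht : 0 < t)
    (h1 : ∀ x, ∫ τ, ‖F (x, τ)‖ ^ 2 ∂leb = 1) (he1 : ∫ x, ∫ τ, ‖F (x, τ) - A (x, τ)‖ ^ 2 ∂leb ∂μ ≤ e1)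
    (he2 : ∀ x, ∫ τ, ‖A (x, τ) - M (x, τ)‖ ^ 2 ∂leb ≤ e2) :
    1 - t - (1 / t) * (2 * e1 + 2 * e2) ≤ ∫ x, ∫ τ, (F (x, τ) * conj (M (x, τ))).re ∂leb ∂μ := by
  have hsq : ∀ {f g : X × ℝ → ℂ}, Measurable f → Measurable g → ∀ {Cf Cg : ℝ},
      (∀ q, ‖f q‖ ≤ Cf) → (∀ q, ‖g q‖ ≤ Cg) → Integrable (fun q => ‖f q - g q‖ ^ 2) (μ.prod leb) := by
    intro f g hf hg Cf Cg hfb hgb
    refine integrable_bdd ((hf.sub hg).norm.pow_const 2) ((Cf + Cg) ^ 2) fun q => ?_
    rw [Real.norm_eq_abs, abs_of_nonneg (sq_nonneg _)]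
    exact pow_le_pow_left₀ (norm_nonneg _) ((norm_sub_le _ _).trans (add_le_add (hfb q) (hgb q))) 2
  have i1 := hsq hF hA bF bA
  have i2 := hsq hA hM bA bM
  have i0 : Integrable (fun q => ‖F q‖ ^ 2) (μ.prod leb) := by
    simpa using hsq hF (measurable_const (a := (0 : ℂ))) bF (Cg := 0) (fun q => by simp)
  have ip : Integrable (fun q => (F q * conj (M q)).re) (μ.prod leb) := by
    refine integrable_bdd (Complex.measurable_re.comp (hF.mul (Complex.continuous_conj.measurable.comp hM)))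
      (CF * CM) fun q => ?_
    rw [Real.norm_eq_abs]
    refine (Complex.abs_re_le_norm _).trans ?_
    rw [norm_mul, Complex.norm_conj]
    exact mul_le_mul (bF q) (bM q) (norm_nonneg _) ((norm_nonneg _).trans (bF q))
  have key : ∫ q, ((1 - t) * ‖F q‖ ^ 2 - (1 / t) * (2 * ‖F q - A q‖ ^ 2 + 2 * ‖A q - M q‖ ^ 2)) ∂(μ.prod leb) ≤
      ∫ q, (F q * conj (M q)).re ∂(μ.prod leb) := by
    refine integral_mono ((i0.const_mul _).sub (((i1.const_mul 2).add (i2.const_mul 2)).const_mul _)) ip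
      fun q => ?_
    refine le_trans (sub_le_sub_left (mul_le_mul_of_nonneg_left ?_ (by positivity)) _) (pairing_ge t ht _ _)
    have h2 := norm_add_le (F q - A q) (A q - M q)
    rw [sub_add_sub_cancel] at h2
    refine (pow_le_pow_left₀ (norm_nonneg _) h2 2).trans ?_
    have := add_sq_le (a := ‖F q - A q‖) (b := ‖A q - M q‖)
    linarith
  rw [← integral_prod _ ip]
  refine le_trans ?_ key
  have i12 : Integrable (fun q => 2 * ‖F q - A q‖ ^ 2 + 2 * ‖A q - M q‖ ^ 2) (μ.prod leb) :=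
    (i1.const_mul 2).add (i2.const_mul 2)
  rw [integral_sub (i0.const_mul _) (i12.const_mul _), integral_const_mul,
    integral_const_mul, integral_add (i1.const_mul 2) (i2.const_mul 2), integral_const_mul, integral_const_mul,
    integral_prod _ i0, integral_prod _ i1, integral_prod _ i2]
  have a2 : ∫ x, ∫ τ, ‖A (x, τ) - M (x, τ)‖ ^ 2 ∂leb ∂μ ≤ e2 :=
    (integral_mono_of_nonneg (Filter.Eventually.of_forall fun x => integral_nonneg fun τ => sq_nonneg _)
      (integrable_const e2) (Filter.Eventually.of_forall he2)).trans (le_of_eq (by simp))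
  simp only [h1, integral_const, probReal_univ, smul_eq_mul, mul_one]
  gcongr

namespace Data

variable {D : Data d} {H : (Fin (d + 1) → ℝ) → ℕ}

/-- The pairing, averaged over the base point. -/
theorem integral_pair_ge (h : D.Ok) (hH : Measurable H) (hΦm : ∀ m ∈ D.W.S, Measurable (D.Φ m))
    (hab : ∀ m, Measurable (D.a m) ∧ Measurable (D.b m)) (hN : 0 < D.N) (hlN : D.R * D.l ≤ D.N)
    (hR : 0 < D.R) (hrest : D.N - D.R * D.l ≤ D.R) (θ : ℝ) {B t ε₀ ε₃ : ℝ} (ht : 0 < t) (hε₀ : 0 ≤ ε₀)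
    (hε₃ : 0 ≤ ε₃) (hB : ∀ τ x0, ‖D.main τ θ x0‖ ≤ B)
    (hwave : ∫ x in cube d, ‖ex (θ * H x) - D.T θ x‖ ^ 2 ≤ ε₀)
    (hep : ∀ m ∈ D.W.S, ∫ u, ‖D.chirp m u - D.Φ m u‖ ^ 2 ∂leb ≤ ε₃ * D.l) :
    1 - t - (1 / t) * (2 * (ε₀ + (D.R : ℝ) / D.N) + 2 * ((D.idx.card : ℝ) ^ 2 * ε₃)) ≤
      ∫ x0 in cube d, D.pair H θ θ x0 := by
  have hAm : Measurable fun q : (Fin (d + 1) → ℝ) × ℝ => D.approx q.2 θ q.1 := by
    unfold Data.approx
    exact Measurable.const_mul (Finset.measurable_sum _ fun j _ =>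
      ((D.measurable_T θ).comp (measurable_fst.add_const _)).mul
        (measurable_ex.comp (measurable_snd.const_mul _))) _
  have hAb : ∀ τ x0, ‖D.approx τ θ x0‖ ≤
      (Real.sqrt D.N)⁻¹ * ((D.R * D.l : ℕ) * ∑ m ∈ D.W.S, (‖D.a m θ‖ + ‖D.b m θ‖)) := fun τ x0 => by
    rw [Data.approx, norm_mul, Complex.norm_real, Real.norm_eq_abs,
      abs_of_nonneg (inv_nonneg.2 (Real.sqrt_nonneg _))]
    refine mul_le_mul_of_nonneg_left ((norm_sum_le _ _).trans ((Finset.sum_le_card_nsmul _ _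
      (∑ m ∈ D.W.S, (‖D.a m θ‖ + ‖D.b m θ‖)) fun j _ => ?_).trans (le_of_eq (by simp))))
      (inv_nonneg.2 (Real.sqrt_nonneg _))
    rw [norm_mul, norm_ex, mul_one]
    exact (norm_sum_le _ _).trans (Finset.sum_le_sum fun m _ => (norm_add_le _ _).trans (le_of_eq (by
      rw [norm_mul, norm_mul, norm_ex, norm_ex, mul_one, mul_one])))
  have hFm : Measurable fun q : (Fin (d + 1) → ℝ) × ℝ => D.poly H q.2 θ q.1 :=
    (measurable_poly (D := D) hH).comp (f := fun q : (Fin (d + 1) → ℝ) × ℝ => (q.2, θ, q.1))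
      (measurable_snd.prodMk (measurable_const.prodMk measurable_fst))
  have hMm : Measurable fun q : (Fin (d + 1) → ℝ) × ℝ => D.main q.2 θ q.1 :=
    (measurable_main (D := D) hΦm hab).comp (f := fun q : (Fin (d + 1) → ℝ) × ℝ => (q.2, θ, q.1))
      (measurable_snd.prodMk (measurable_const.prodMk measurable_fst))
  have hFb : ∀ q : (Fin (d + 1) → ℝ) × ℝ, ‖D.poly H q.2 θ q.1‖ ≤ (D.N : ℝ) := fun q => norm_flatF_le _ _ _ _
  have h1 : ∀ x : Fin (d + 1) → ℝ, ∫ τ, ‖D.poly H τ θ x‖ ^ 2 ∂leb = 1 := fun x =>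
    integral_norm_sq_poly hN θ x
  have he1 := integral_err_le h hH hN hlN hrest θ hε₀ hwave
  have he2 := fun x => integral_approx_sub_main_le h hΦm hN hlN hR θ x hε₃ hep
  show _ ≤ ∫ x0 in cube d, ∫ τ, (D.poly H τ θ x0 * conj (D.main τ θ x0)).re ∂leb
  exact pairing_avg (volume.restrict (cube d)) hFm hAm hMm hFb (fun q => hAb q.2 q.1)
    (fun q => hB q.2 q.1) ht h1 he1 he2

end Data

end

end Vale.Agent.P130.Flat.Prop
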