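import Vale.Agent.P130.Flat.Prop.Estimate

/-!
P130, flatness proposition: smoothing the main term in the second variable.
-/

namespace Vale.Agent.P130.Flat.Prop

open MeasureTheory Finset
open Vale.Agent.P110.Ultra (Vec dotZ dotR qOf)
open scoped ComplexConjugate

noncomputable section

variable {d : ℕ}

namespace Data

variable (D : Data d) (H : (Fin (d + 1) → ℝ) → ℕ)

/-- The coefficients of the smoothed main term. -/
def coef (K : ℕ) (x0 : Fin (d + 1) → ℝ) (k : ℤ) (τ : ℝ) : ℂ :=
  kerCoef K k * ∫ v, D.main τ v x0 * ex (-((k : ℝ) * v)) ∂leb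

/-- The pairing with the smoothed main term. -/
def smoothPair (K : ℕ) (θ : ℝ) (x0 : Fin (d + 1) → ℝ) : ℝ :=
  ∫ v, ker K (θ - v) * D.pair H θ v x0 ∂leb

theorem periodic_main (h : D.Ok) (θ : ℝ) (x0 : Fin (d + 1) → ℝ) :
    Function.Periodic (fun τ => D.main τ θ x0) 1 := by
  intro τ
  simp only [Data.main]
  rw [show (D.p : ℝ) * (τ + 1) = (D.p : ℝ) * τ + ((D.p : ℤ) : ℝ) by push_cast; ring, Int.fract_add_intCast]
  refine if_congr Iff.rfl rfl (congrArg _ (Finset.sum_congr rfl fun z hz => ?_))
  have hm : z.1 ∈ D.W.S := (Finset.mem_sigma.1 hz).1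
  have e1 : ∀ (j : ℕ) (u : ℝ), ex ((j : ℝ) * (u + 1)) = ex ((j : ℝ) * u) := fun j u => by
    rw [show (j : ℝ) * (u + 1) = (j : ℝ) * u + ((j : ℤ) : ℝ) by push_cast; ring, ex_add_int]
  have e2 : ∀ (j : ℕ) (u : ℝ), ex ((j : ℝ) * (u - 1)) = ex ((j : ℝ) * u) := fun j u => by
    rw [← e1 j (u - 1), sub_add_cancel]
  simp only [Data.atom]
  split_ifs
  · rw [show τ + 1 - D.cen z.1 z.2.1.1 z.2.1.2 = τ - D.cen z.1 z.2.1.1 z.2.1.2 + 1 by ring, e1,
      h.hΦp _ hm]
  · rw [show -(τ + 1) - D.cen z.1 z.2.1.1 z.2.1.2 = -τ - D.cen z.1 z.2.1.1 z.2.1.2 - 1 by ring, e2,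
      (h.hΦp _ hm).sub_eq]

theorem norm_kerCoef_le (K : ℕ) (k : ℤ) : ‖kerCoef K k‖ ≤ 1 := by
  rw [kerCoef, Complex.norm_real, Real.norm_eq_abs, abs_of_nonneg (by positivity),
    div_le_one (Nat.cast_pos.2 K.centralBinom_pos)]
  exact_mod_cast Nat.choose_le_centralBinom _ _

variable {D H} (hH : Measurable H) (hΦm : ∀ m ∈ D.W.S, Measurable (D.Φ m))
  (hab : ∀ m, Measurable (D.a m) ∧ Measurable (D.b m)) {B : ℝ}
  (hB : ∀ τ θ x0, ‖D.main τ θ x0‖ ≤ B)

include hΦm hab hB in
theorem smoothG_eq (K : ℕ) (x0 : Fin (d + 1) → ℝ) (τ θ : ℝ) :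
    smoothG K (D.coef K x0) τ θ = ∫ v, (ker K (θ - v) : ℂ) * D.main τ v x0 ∂leb := by
  have hm : Measurable fun v => D.main τ v x0 :=
    (measurable_main (D := D) hΦm hab).comp (f := fun v : ℝ => (τ, v, x0))
      (measurable_const.prodMk (measurable_id.prodMk measurable_const))
  have hi : ∀ k : ℤ, Integrable (fun v => kerCoef K k * (D.main τ v x0 * ex (-((k : ℝ) * v))) *
      ex ((k : ℝ) * θ)) leb := fun k =>
    integrable_bdd (((hm.mul (measurable_ex.comp (measurable_id.const_mul _).neg)).const_mul _).mul_const _)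
      (‖kerCoef K k‖ * B) fun v => by
        rw [norm_mul, norm_mul, norm_mul, norm_ex, norm_ex, mul_one, mul_one]
        exact mul_le_mul_of_nonneg_left (hB _ _ _) (norm_nonneg _)
  simp only [ker_eq_sum, Finset.sum_mul, smoothG, Data.coef, ← integral_const_mul, ← integral_mul_const]
  rw [← integral_finsetSum _ fun k _ => hi k]
  refine integral_congr_ae (Filter.Eventually.of_forall fun v => ?_)
  refine Finset.sum_congr rfl fun k _ => ?_
  rw [show (k : ℝ) * (θ - v) = -((k : ℝ) * v) + (k : ℝ) * θ by ring, ex_add]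
  ring

include hΦm hab hB in
theorem norm_smoothG_le (K : ℕ) (x0 : Fin (d + 1) → ℝ) (τ θ : ℝ) :
    ‖smoothG K (D.coef K x0) τ θ‖ ≤ B := by
  rw [smoothG_eq hΦm hab hB]
  refine (norm_integral_le_of_norm_le (g := fun v => ker K (θ - v) * B) ?_
    (Filter.Eventually.of_forall fun v => ?_)).trans (le_of_eq ?_)
  · exact ((continuous_ker K).comp (continuous_const.sub continuous_id)).integrableOn_Ioc.mul_const _
  · rw [norm_mul, Complex.norm_real, Real.norm_eq_abs, abs_of_nonneg (ker_nonneg _ _)]
    exact mul_le_mul_of_nonneg_left (hB _ _ _) (ker_nonneg _ _)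
  · rw [integral_mul_const, integral_ker, one_mul]

include hΦm hab in
theorem measurable_coef (K : ℕ) (x0 : Fin (d + 1) → ℝ) (k : ℤ) : Measurable (D.coef K x0 k) := by
  have h : Measurable fun q : ℝ × ℝ => D.main q.1 q.2 x0 * ex (-((k : ℝ) * q.2)) :=
    ((measurable_main (D := D) hΦm hab).comp (f := fun q : ℝ × ℝ => (q.1, q.2, x0))
      (measurable_fst.prodMk (measurable_snd.prodMk measurable_const))).mul
      (measurable_ex.comp (measurable_snd.const_mul _).neg)
  exact (h.stronglyMeasurable.integral_prod_right' (ν := leb)).measurable.const_mul _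

include hB in
theorem norm_coef_le (K : ℕ) (x0 : Fin (d + 1) → ℝ) (k : ℤ) (τ : ℝ) : ‖D.coef K x0 k τ‖ ≤ B := by
  have hB0 : 0 ≤ B := (norm_nonneg _).trans (hB 0 0 0)
  rw [Data.coef, norm_mul]
  refine (mul_le_mul (norm_kerCoef_le K k) ((norm_integral_le_of_norm_le (g := fun _ => B) (integrable_const B)
    (Filter.Eventually.of_forall fun v => ?_)).trans (le_of_eq (by simp))) (norm_nonneg _) zero_le_one).trans
    (le_of_eq (one_mul B))
  rw [norm_mul, norm_ex, mul_one]
  exact hB _ _ _

include hH hΦm hab in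
theorem measurable_pair : Measurable fun q : ℝ × ℝ × (Fin (d + 1) → ℝ) => D.pair H q.1 q.2.1 q.2.2 := by
  have h : Measurable fun z : (ℝ × ℝ × (Fin (d + 1) → ℝ)) × ℝ =>
      (D.poly H z.2 z.1.1 z.1.2.2 * conj (D.main z.2 z.1.2.1 z.1.2.2)).re :=
    Complex.measurable_re.comp (((measurable_poly (D := D) hH).comp
      (f := fun z : (ℝ × ℝ × (Fin (d + 1) → ℝ)) × ℝ => (z.2, z.1.1, z.1.2.2))
      (measurable_snd.prodMk ((measurable_fst.comp measurable_fst).prodMk
        (measurable_snd.comp (measurable_snd.comp measurable_fst))))).mul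
      (Complex.continuous_conj.measurable.comp ((measurable_main (D := D) hΦm hab).comp
        (f := fun z : (ℝ × ℝ × (Fin (d + 1) → ℝ)) × ℝ => (z.2, z.1.2.1, z.1.2.2))
        (measurable_snd.prodMk ((measurable_fst.comp (measurable_snd.comp measurable_fst)).prodMk
          (measurable_snd.comp (measurable_snd.comp measurable_fst)))))))
  exact (h.stronglyMeasurable.integral_prod_right' (ν := leb)).measurable

theorem integrable_norm_flatF (s : ℕ → ℕ) (N : ℕ) (θ : ℝ) : Integrable (fun τ => flatF N s τ θ) leb :=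
  integrable_bdd (by unfold flatF; exact Measurable.const_mul (Finset.measurable_sum _ fun j _ =>
    measurable_ex.comp ((measurable_id.const_mul _).add_const _)) _) N fun τ => norm_flatF_le _ _ _ _

include hH in
theorem integral_norm_poly_le (hN : 0 < D.N) (θ : ℝ) (x0 : Fin (d + 1) → ℝ) :
    ∫ τ, ‖D.poly H τ θ x0‖ ∂leb ≤ 1 := by
  have h1 : Integrable (fun τ => D.poly H τ θ x0) leb := integrable_norm_flatF _ _ _
  have h2 : Integrable (fun τ => ‖D.poly H τ θ x0‖ ^ 2) leb :=
    integrable_bdd (((measurable_poly (D := D) hH).comp (f := fun τ : ℝ => (τ, θ, x0))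
      (measurable_id.prodMk measurable_const)).norm.pow_const 2) ((D.N : ℝ) ^ 2) fun τ => by
      rw [Real.norm_eq_abs, abs_of_nonneg (sq_nonneg _)]
      exact pow_le_pow_left₀ (norm_nonneg _) (norm_flatF_le _ _ _ _) 2
  refine (integral_mono h1.norm (((integrable_const (1 : ℝ)).add h2).div_const 2) fun τ => ?_).trans
    (le_of_eq ?_)
  · simp only [Pi.add_apply]
    nlinarith [sq_nonneg (‖D.poly H τ θ x0‖ - 1)]
  · rw [integral_div, integral_add' (integrable_const _) h2, integral_norm_sq_poly hN]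
    simp

include hH hB in
theorem abs_pair_le (hN : 0 < D.N) (θ v : ℝ) (x0 : Fin (d + 1) → ℝ) : |D.pair H θ v x0| ≤ B := by
  have h1 : Integrable (fun τ => D.poly H τ θ x0) leb := integrable_norm_flatF _ _ _
  rw [Data.pair, ← Real.norm_eq_abs]
  refine (norm_integral_le_of_norm_le (h1.norm.mul_const B) (Filter.Eventually.of_forall fun τ => ?_)).trans ?_
  · rw [Real.norm_eq_abs]
    refine (Complex.abs_re_le_norm _).trans ?_
    rw [norm_mul, Complex.norm_conj]
    exact mul_le_mul_of_nonneg_left (hB _ _ _) (norm_nonneg _)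
  · rw [integral_mul_const]
    exact mul_le_of_le_one_left ((norm_nonneg _).trans (hB 0 0 0)) (integral_norm_poly_le hH hN θ x0)

include hH hΦm hab hB in
theorem re_integral_eq_smoothPair (K : ℕ) (θ : ℝ) (x0 : Fin (d + 1) → ℝ) :
    (∫ τ, flatF D.N (D.pos H x0) τ θ * conj (smoothG K (D.coef K x0) τ θ) ∂leb).re =
      D.smoothPair H K θ x0 := by
  have hF : Measurable fun τ => D.poly H τ θ x0 :=
    (measurable_poly (D := D) hH).comp (f := fun τ : ℝ => (τ, θ, x0)) (measurable_id.prodMk measurable_const)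
  have hM : Measurable fun q : ℝ × ℝ => D.main q.1 q.2 x0 :=
    (measurable_main (D := D) hΦm hab).comp (f := fun q : ℝ × ℝ => (q.1, q.2, x0))
      (measurable_fst.prodMk (measurable_snd.prodMk measurable_const))
  have hk : Measurable fun q : ℝ × ℝ => ker K (θ - q.2) :=
    (continuous_ker K).measurable.comp (measurable_snd.const_sub θ)
  have hkb : ∀ u, |ker K u| ≤ (4 : ℝ) ^ K / K.centralBinom := fun u => by
    rw [abs_of_nonneg (ker_nonneg _ _)]
    refine mul_le_of_le_one_right (by positivity) ?_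
    rw [pow_mul]
    exact pow_le_one₀ (sq_nonneg _) (Real.cos_sq_le_one _)
  have hint : Integrable (fun q : ℝ × ℝ => (D.poly H q.1 θ x0 * conj (D.main q.1 q.2 x0)).re * ker K (θ - q.2))
      (leb.prod leb) := by
    refine integrable_bdd ((Complex.measurable_re.comp ((hF.comp measurable_fst).mul
      (Complex.continuous_conj.measurable.comp hM))).mul hk) (D.N * B * ((4 : ℝ) ^ K / K.centralBinom)) fun q => ?_
    rw [norm_mul, Real.norm_eq_abs, Real.norm_eq_abs]
    have hB0 : 0 ≤ B := (norm_nonneg _).trans (hB 0 0 0)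
    refine mul_le_mul ((Complex.abs_re_le_norm _).trans ?_) (hkb _) (abs_nonneg _) (by positivity)
    rw [norm_mul, Complex.norm_conj]
    exact mul_le_mul (norm_flatF_le _ _ _ _) (hB _ _ _) (norm_nonneg _) (Nat.cast_nonneg _)
  have hi2 : ∀ τ, Integrable (fun v => D.poly H τ θ x0 * conj ((ker K (θ - v) : ℂ) * D.main τ v x0)) leb :=
    fun τ => by
    refine integrable_bdd (measurable_const.mul (Complex.continuous_conj.measurable.comp
      ((Complex.continuous_ofReal.measurable.comp ((continuous_ker K).measurable.comp (measurable_id.const_sub θ))).mul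
        (hM.comp (measurable_const.prodMk measurable_id))))) (D.N * ((4 : ℝ) ^ K / K.centralBinom * B)) fun v => ?_
    rw [norm_mul, Complex.norm_conj, norm_mul, Complex.norm_real, Real.norm_eq_abs]
    exact mul_le_mul (norm_flatF_le _ _ _ _) (mul_le_mul (hkb _) (hB _ _ _) (norm_nonneg _) (by positivity))
      (by positivity) (Nat.cast_nonneg _)
  have hFi : Integrable (fun τ => flatF D.N (D.pos H x0) τ θ * conj (smoothG K (D.coef K x0) τ θ)) leb := by
    refine integrable_bdd (hF.mul (Complex.continuous_conj.measurable.comp ?_)) (D.N * B) fun τ => ?_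
    · unfold smoothG
      exact Finset.measurable_sum _ fun k _ => (measurable_coef hΦm hab K x0 k).mul_const _
    · rw [norm_mul, Complex.norm_conj]
      exact mul_le_mul (norm_flatF_le _ _ _ _) (norm_smoothG_le hΦm hab hB _ _ _ _) (norm_nonneg _)
        (Nat.cast_nonneg _)
  calc (∫ τ, flatF D.N (D.pos H x0) τ θ * conj (smoothG K (D.coef K x0) τ θ) ∂leb).re
      = ∫ τ, (flatF D.N (D.pos H x0) τ θ * conj (smoothG K (D.coef K x0) τ θ)).re ∂leb :=
        (integral_re hFi).symm
    _ = ∫ τ, ∫ v, (D.poly H τ θ x0 * conj (D.main τ v x0)).re * ker K (θ - v) ∂leb ∂leb := by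
        refine integral_congr_ae (Filter.Eventually.of_forall fun τ => ?_)
        show (D.poly H τ θ x0 * conj (smoothG K (D.coef K x0) τ θ)).re = _
        rw [smoothG_eq hΦm hab hB, ← integral_conj, ← integral_const_mul]
        refine ((integral_re (hi2 τ)).symm).trans (integral_congr_ae (Filter.Eventually.of_forall fun v => ?_))
        show (D.poly H τ θ x0 * conj ((ker K (θ - v) : ℂ) * D.main τ v x0)).re = _
        rw [map_mul, Complex.conj_ofReal, mul_left_comm, Complex.re_ofReal_mul]
        ring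
    _ = ∫ v, ∫ τ, (D.poly H τ θ x0 * conj (D.main τ v x0)).re * ker K (θ - v) ∂leb ∂leb :=
        integral_integral_swap hint
    _ = D.smoothPair H K θ x0 := by
        refine integral_congr_ae (Filter.Eventually.of_forall fun v => ?_)
        show ∫ τ, (D.poly H τ θ x0 * conj (D.main τ v x0)).re * ker K (θ - v) ∂leb = _
        rw [integral_mul_const, mul_comm]
        rfl

include hH hΦm hab in
theorem measurable_smoothPair (K : ℕ) :
    Measurable fun q : ℝ × (Fin (d + 1) → ℝ) => D.smoothPair H K q.1 q.2 := by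
  have h : Measurable fun z : (ℝ × (Fin (d + 1) → ℝ)) × ℝ => ker K (z.1.1 - z.2) * D.pair H z.1.1 z.2 z.1.2 :=
    ((continuous_ker K).measurable.comp ((measurable_fst.comp measurable_fst).sub measurable_snd)).mul
      ((measurable_pair hH hΦm hab).comp (f := fun z : (ℝ × (Fin (d + 1) → ℝ)) × ℝ => (z.1.1, z.2, z.1.2))
        ((measurable_fst.comp measurable_fst).prodMk (measurable_snd.prodMk (measurable_snd.comp measurable_fst))))
  exact (h.stronglyMeasurable.integral_prod_right' (ν := leb)).measurable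

include hH hB in
theorem abs_smoothPair_le (hN : 0 < D.N) (K : ℕ) (θ : ℝ) (x0 : Fin (d + 1) → ℝ) :
    |D.smoothPair H K θ x0| ≤ B := by
  rw [Data.smoothPair, ← Real.norm_eq_abs]
  refine (norm_integral_le_of_norm_le (g := fun v => ker K (θ - v) * B) ?_
    (Filter.Eventually.of_forall fun v => ?_)).trans (le_of_eq ?_)
  · exact ((continuous_ker K).comp (continuous_const.sub continuous_id)).integrableOn_Ioc.mul_const _
  · rw [norm_mul, Real.norm_eq_abs, Real.norm_eq_abs, abs_of_nonneg (ker_nonneg _ _)]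
    exact mul_le_mul_of_nonneg_left (abs_pair_le hH hB hN _ _ _) (ker_nonneg _ _)
  · rw [integral_mul_const, integral_ker, one_mul]

include hH hΦm hab hB in
/-- **The smoothed pairing, averaged over the base point.** -/
theorem integral_smoothPair_ge (hN : 0 < D.N) {A K : ℕ} (hA : ∀ x ∈ cube d, H x < A) {η t lam θ : ℝ}
    (hK : 4 ≤ K) (hη : 0 < η) (hηlam : η ≤ lam / 2) (ht : 0 < t) (hB2 : B ≤ 2)
    (hAη : 2 * Real.pi * A * η ≤ t) (htail : (K : ℝ) * (Real.cos (Real.pi * η) ^ 2) ^ K ≤ t)
    (hθ : θ ∈ Set.Icc lam (1 - lam))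
    (hdiag : ∀ v ∈ Set.Icc (lam / 2) (1 - lam / 2), 1 - 2 * t ≤ ∫ x0 in cube d, D.pair H v v x0) :
    1 - 7 * t ≤ ∫ x0 in cube d, D.smoothPair H K θ x0 := by
  have hB0 : 0 ≤ B := (norm_nonneg _).trans (hB 0 0 0)
  have hfl : ∀ v x0, |θ - v| ≤ η → D.pair H v v x0 - 2 * t ≤ D.pair H θ v x0 := by
    intro v x0 hv
    have hpm : ∀ u, Measurable fun τ => (D.poly H τ u x0 * conj (D.main τ v x0)).re := fun u =>
      Complex.measurable_re.comp (((measurable_poly (D := D) hH).comp (f := fun τ : ℝ => (τ, u, x0))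
        (measurable_id.prodMk measurable_const)).mul (Complex.continuous_conj.measurable.comp
        ((measurable_main (D := D) hΦm hab).comp (f := fun τ : ℝ => (τ, v, x0))
          (measurable_id.prodMk measurable_const))))
    have hi : ∀ u, Integrable (fun τ => (D.poly H τ u x0 * conj (D.main τ v x0)).re) leb := fun u =>
      integrable_bdd (hpm u) (D.N * B) fun τ => by
        rw [Real.norm_eq_abs]
        refine (Complex.abs_re_le_norm _).trans ?_
        rw [norm_mul, Complex.norm_conj]
        exact mul_le_mul (norm_flatF_le _ _ _ _) (hB _ _ _) (norm_nonneg _) (Nat.cast_nonneg _)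
    set Δ : ℝ → ℂ := fun τ => D.poly H τ θ x0 - D.poly H τ v x0 with hΔ
    have hΔm : Measurable Δ := ((measurable_poly (D := D) hH).comp (f := fun τ : ℝ => (τ, θ, x0))
      (measurable_id.prodMk measurable_const)).sub ((measurable_poly (D := D) hH).comp
        (f := fun τ : ℝ => (τ, v, x0)) (measurable_id.prodMk measurable_const))
    have h2 : Integrable (fun τ => ‖Δ τ‖ ^ 2) leb := integrable_bdd (hΔm.norm.pow_const 2)
      (((D.N : ℝ) + D.N) ^ 2) fun τ => by
        rw [Real.norm_eq_abs, abs_of_nonneg (sq_nonneg _)]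
        exact pow_le_pow_left₀ (norm_nonneg _)
          ((norm_sub_le _ _).trans (add_le_add (norm_flatF_le _ _ _ _) (norm_flatF_le _ _ _ _))) 2
    have hsmall : ∫ τ, ‖Δ τ‖ ^ 2 ∂leb ≤ t ^ 2 := by
      refine (integral_norm_sq_poly_sub hN A hA θ v x0).trans (pow_le_pow_left₀ (by positivity) ?_ 2)
      exact (mul_le_mul_of_nonneg_left hv (by positivity)).trans hAη
    have hle : D.pair H v v x0 - D.pair H θ v x0 ≤ B * ((t + t ^ 2 / t) / 2) := by
      rw [Data.pair, Data.pair, ← integral_sub (hi v) (hi θ)]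
      refine (integral_mono ((hi v).sub (hi θ)) ((((integrable_const t).add (h2.div_const t)).div_const 2).const_mul B)
        fun τ => ?_).trans ?_
      · show (D.poly H τ v x0 * conj (D.main τ v x0)).re - (D.poly H τ θ x0 * conj (D.main τ v x0)).re ≤
          B * ((t + ‖Δ τ‖ ^ 2 / t) / 2)
        rw [← Complex.sub_re, ← sub_mul]
        refine (Complex.re_le_norm _).trans ?_
        rw [norm_mul, Complex.norm_conj, norm_sub_rev, mul_comm B]
        refine mul_le_mul ?_ (hB _ _ _) (norm_nonneg _) (by positivity)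
        show ‖Δ τ‖ ≤ _
        have h3 : 2 * ‖Δ τ‖ ≤ t + ‖Δ τ‖ ^ 2 / t := by
          rw [← sub_nonneg, show t + ‖Δ τ‖ ^ 2 / t - 2 * ‖Δ τ‖ = (t - ‖Δ τ‖) ^ 2 / t by field_simp; ring]
          positivity
        linarith
      · rw [integral_const_mul, integral_div, integral_add' (integrable_const _) (h2.div_const t), integral_div]
        simp only [integral_const, probReal_univ, smul_eq_mul, one_mul]
        gcongr
    rw [show t ^ 2 / t = t by field_simp] at hle
    nlinarith [mul_le_mul_of_nonneg_right hB2 ht.le]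
  have hmp : Measurable fun q : (Fin (d + 1) → ℝ) × ℝ => ker K (θ - q.2) * D.pair H θ q.2 q.1 :=
    ((continuous_ker K).measurable.comp (measurable_snd.const_sub θ)).mul
      ((measurable_pair hH hΦm hab).comp (f := fun q : (Fin (d + 1) → ℝ) × ℝ => (θ, q.2, q.1))
        (measurable_const.prodMk (measurable_snd.prodMk measurable_fst)))
  have hint : Integrable (fun q : (Fin (d + 1) → ℝ) × ℝ => ker K (θ - q.2) * D.pair H θ q.2 q.1)
      ((volume.restrict (cube d)).prod leb) := by
    refine integrable_bdd hmp ((4 : ℝ) ^ K / K.centralBinom * B) fun q => ?_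
    rw [norm_mul, Real.norm_eq_abs, Real.norm_eq_abs]
    refine mul_le_mul ?_ (abs_pair_le hH hB hN _ _ _) (abs_nonneg _) (by positivity)
    rw [abs_of_nonneg (ker_nonneg _ _), ker]
    refine mul_le_of_le_one_right (by positivity) ?_
    rw [pow_mul]
    exact pow_le_one₀ (sq_nonneg _) (Real.cos_sq_le_one _)
  simp only [Data.smoothPair]
  rw [integral_integral_swap hint]
  simp only [integral_const_mul]
  have hkey : ∀ v ∈ Set.Ioc (0 : ℝ) 1, ker K (θ - v) * (1 - 4 * t) - 3 * t ≤
      ker K (θ - v) * ∫ x0 in cube d, D.pair H θ v x0 := by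
    intro v hv
    have hk := ker_nonneg K (θ - v)
    have hip : ∀ u, Integrable (fun x0 => D.pair H u v x0) (volume.restrict (cube d)) := fun u =>
      integrable_bdd ((measurable_pair hH hΦm hab).comp (f := fun x0 : Fin (d + 1) → ℝ => (u, v, x0))
        (measurable_const.prodMk (measurable_const.prodMk measurable_id))) B fun x0 => by
        rw [Real.norm_eq_abs]
        exact abs_pair_le hH hB hN _ _ _
    by_cases hn : |θ - v| ≤ η
    · have hvI : v ∈ Set.Icc (lam / 2) (1 - lam / 2) := by
        rw [abs_le] at hn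
        exact ⟨by linarith [hθ.1], by linarith [hθ.2]⟩
      have h1 : ∫ x0 in cube d, (D.pair H v v x0 - 2 * t) ≤ ∫ x0 in cube d, D.pair H θ v x0 :=
        integral_mono ((hip v).sub (integrable_const _)) (hip θ) fun x0 => hfl v x0 hn
      rw [integral_sub (hip v) (integrable_const _)] at h1
      simp only [integral_const, probReal_univ, smul_eq_mul, one_mul] at h1
      have := hdiag v hvI
      nlinarith [mul_le_mul_of_nonneg_left (show 1 - 4 * t ≤ ∫ x0 in cube d, D.pair H θ v x0 by linarith) hk]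
    · have hsmall : ker K (θ - v) ≤ t := by
        refine (ker_le hK hη.le (not_le.1 hn).le ?_).trans htail
        rw [abs_le]
        exact ⟨by linarith [hθ.1, hv.2], by linarith [hθ.2, hv.1]⟩
      have hlow : -2 ≤ ∫ x0 in cube d, D.pair H θ v x0 := by
        refine le_trans ?_ (integral_mono (integrable_const (-2 : ℝ)) (hip θ) fun x0 => ?_)
        · simp
        · have := (abs_le.1 (abs_pair_le hH hB hN θ v x0)).1
          linarith
      nlinarith [mul_le_mul_of_nonneg_left hlow hk, mul_nonneg hk ht.le]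
  have hkm : Integrable (fun v => ker K (θ - v)) leb :=
    ((continuous_ker K).comp (continuous_const.sub continuous_id)).integrableOn_Ioc
  have hri : Integrable (fun v => ker K (θ - v) * ∫ x0 in cube d, D.pair H θ v x0) leb := by
    refine (hint.integral_prod_right).congr (Filter.Eventually.of_forall fun v => ?_)
    exact integral_const_mul (ker K (θ - v)) fun x0 => D.pair H θ v x0
  refine le_trans (le_of_eq ?_) (integral_mono_ae ((hkm.mul_const (1 - 4 * t)).sub (integrable_const (3 * t))) hri ?_)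
  · simp only [Pi.sub_apply]
    rw [integral_sub (hkm.mul_const _) (integrable_const _), integral_mul_const, integral_ker]
    simp only [integral_const, probReal_univ, smul_eq_mul, one_mul]
    ring
  · exact (ae_restrict_mem measurableSet_Ioc).mono hkey

end Data

end

end Vale.Agent.P130.Flat.Prop
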